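import Vale.Agent.P216D.ModRG
import Vale.Agent.P216D.Heat
import Vale.Agent.P216DC.Stm
import Vale.Agent.P216R.Flow

/-!
# P216KV/RT: the evolution of the scalar curvature and bounds for its derivatives
-/

open scoped Manifold Topology ContDiff
open Set Filter

set_option maxSynthPendingDepth 3

noncomputable section

namespace Vale.Agent.P216KV

open Vale.Agent.P216R Vale.Agent.P216D Vale.Agent.P216D.Loc Vale.Agent.P216DC
open Vale.Agent.P210.R2.H53 (gradG gamG hessG lapG)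

section loc

variable {L : Loc} (p : L.O) {K : ℝ}

theorem word_le {k : ℕ} (h : RmB (L.g (t p)) k (x p) K) (w : Fin k → Fin 3) (c d : Fin 3) :
    |ev p (L.fr.Dw (List.ofFn w) (L.fr.M c d))| ≤ K := by
  rw [ev_Dw_M, ← Rm_model]
  exact h _ fun i => by rw [on_g p]; simp

theorem word_S {k : ℕ} (h : RmB (L.g (t p)) k (x p) K) (w : Fin k → Fin 3) :
    |ev p (L.fr.Dw (List.ofFn w) (2 * L.fr.S))| ≤ 6 * K := by
  have e : ∀ l : List (Fin 3), L.fr.Dw l (2 * L.fr.S) =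
      2 * (L.fr.Dw l (L.fr.M 0 0) + L.fr.Dw l (L.fr.M 1 1) + L.fr.Dw l (L.fr.M 2 2)) := fun l => by
    induction l with
    | nil => rfl
    | cons a l ih => simp only [Fr.Dw_cons, ih, der_mul, der_ofNat, map_add]; ring
  have h0 := abs_le.1 (word_le p h w 0 0)
  have h1 := abs_le.1 (word_le p h w 1 1)
  have h2 := abs_le.1 (word_le p h w 2 2)
  rw [e, map_mul, map_ofNat, map_add, map_add, abs_le]
  constructor <;> linarith [h0.1, h0.2, h1.1, h1.2, h2.1, h2.2]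

theorem gam_loc (h : RmB (L.g (t p)) 1 (x p) K) :
    gamG (L.g (t p)) (scG (L.g (t p))) (scG (L.g (t p))) (x p) ≤ 108 * K ^ 2 := by
  have e := ev_ip_sc p sm_scG sm_scG
  rw [← S_sc, Fr.ip, map_sum, Fin.sum_univ_three] at e
  have k : ∀ a, ev p (L.fr.D a (2 * L.fr.S) * L.fr.D a (2 * L.fr.S)) ≤ 36 * K ^ 2 := fun a => by
    have := abs_le.1 (word_S p h ![a])
    rw [map_mul]
    change -(6 * K) ≤ ev p (L.fr.D a (2 * L.fr.S)) ∧ ev p (L.fr.D a (2 * L.fr.S)) ≤ _ at this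
    nlinarith [this.1, this.2]
  exact e.symm.trans_le (by linarith [k 0, k 1, k 2])

theorem lap_loc (h : RmB (L.g (t p)) 2 (x p) K) :
    |lapG (L.g (t p)) (scG (L.g (t p))) (x p)| ≤ 18 * K := by
  have e := ev_Lap_sc p sm_scG
  rw [← S_sc, Fr.Lap, map_sum, Fin.sum_univ_three] at e
  have k : ∀ a, |ev p (L.fr.D a (L.fr.D a (2 * L.fr.S)))| ≤ 6 * K := fun a => word_S p h ![a, a]
  have k0 := abs_le.1 (k 0)
  have k1 := abs_le.1 (k 1)
  have k2 := abs_le.1 (k 2)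
  refine (congrArg _ e.symm).trans_le (abs_le.2 ⟨?_, ?_⟩) <;>
    linarith [k0.1, k0.2, k1.1, k1.2, k2.1, k2.2]

theorem ric_loc (h : RmB (L.g (t p)) 0 (x p) K) (a b : Fin 3) :
    |ricG (L.g (t p)) (x p) (e p a) (e p b)| ≤ 4 * K := by
  have h1 : |ev p (2 * L.fr.S)| ≤ 6 * K := word_S p h ![]
  have h2 : |ev p (L.fr.M a b)| ≤ K := word_le p h ![] a b
  rw [map_mul, map_ofNat, abs_le] at h1
  rw [← ev_Ric, Fr.Ric, map_sub, map_zsmul, dl, abs_le]
  rw [abs_le] at h2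
  split_ifs <;> simp only [one_smul, zero_smul] <;> constructor <;>
    linarith [h1.1, h1.2, h2.1, h2.2]

theorem evol_loc (h : P216R.RF L.g L.I L.U) : HasDerivWithinAt (fun s => scG (L.g s) (x p))
    (lapG (L.g (t p)) (scG (L.g (t p))) (x p) +
      2 * ∑ a, ∑ b, ricG (L.g (t p)) (x p) (e p a) (e p b) ^ 2) L.I (t p) := by
  refine (has_Dt_sc sm_scG p).congr_deriv ?_
  have e1 := ev_Lap_sc p sm_scG
  have e2 : L.fl.Dt L.fr.S = L.fr.Lap L.fr.S + L.fr.rsq := (rf h).Dt_S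
  have e3 : L.fr.Lap (2 * L.fr.S) = 2 * L.fr.Lap L.fr.S := by
    simp only [Fr.Lap, Fin.sum_univ_three, der_mul, der_ofNat, mul_zero, add_zero]; ring
  rw [← S_sc, e3] at e1
  rw [← S_sc, der_mul, der_ofNat, mul_zero, add_zero, e2, mul_add, map_add, e1, Fr.rsq]
  simp only [map_mul, map_ofNat, map_sum, map_pow, ev_Ric]

end loc

variable {M : Type} [TopologicalSpace M] [ChartedSpace E3 M] [IsManifold 𝓘(ℝ, E3) ∞ M]
  {U : Set M} {y : M}

theorem rd_Sc_ev {g : Ten E3 M} (hg : Met g U) (hy : y ∈ U) :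
    rd E3 (Sc g) y =ᶠ[𝓝 (pt E3 y)] scG (co g y) :=
  ((isOpen_dom y hg.isOpen).eventually_mem (pt_mem_dom hy)).mono fun _ hz => hg.rd_Sc hz

theorem rmB_pt {g : Ten E3 M} {k : ℕ} {K : ℝ} (h : RmB g k y K) : RmB (co g y) k (pt E3 y) K :=
  fun v hv => by rw [Rm_model]; exact h v fun i => by simpa only [co_pt] using hv i

theorem rf_chart {g : ℝ → Ten E3 M} {I : Set ℝ} (h : P216R.RF g I U) (a : M) :
    P216R.RF (fun s => co (g s) a) I (dom E3 a U) :=
  h.comap ((ld_symm a).mono (isOpen_dom a h.isOpen) inter_subset_left) fun _ h => h.2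

/-- the evolution equation of the scalar curvature -/
theorem sc_evol {g : ℝ → Ten E3 M} {I : Set ℝ} (h : P216R.RF g I U) (hI : Iv I) {s : ℝ}
    (hs : s ∈ I) (hy : y ∈ U) {f : Fin 3 → E3} (hf : ON (g s y) f) :
    HasDerivWithinAt (fun r => Sc (g r) y)
      (lap (g s) (Sc (g s)) y + 2 * ∑ a, ∑ b, Ric (g s) y (f a) (f b) ^ 2) I s := by
  have h1 := rf_chart h y
  rw [lap, lapG_congr EventuallyEq.rfl (rd_Sc_ev (h.met hs) hy)]
  exact evol_loc (L := loc h1.toFam hI) (mkF (L := loc h1.toFam hI) hs (pt_mem_dom hy)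
    (f := f) (by rwa [← co_pt (g s) y] at hf)) h1

section static

variable {g : Ten E3 M} {K : ℝ} (hg : Met g U) (hy : y ∈ U)
include hg hy

theorem gam_Sc_le (h : RmB g 1 y K) : gam g (Sc g) (Sc g) y ≤ 108 * K ^ 2 := by
  rw [gam, gamG_congr rfl (rd_Sc_ev hg hy) (rd_Sc_ev hg hy)]
  exact gam_loc (sec (L := loc0 (hg.isMetricOn y)) (b := (0, pt E3 y)) ⟨trivial, pt_mem_dom hy⟩)
    (rmB_pt h)

theorem lap_Sc_le (h : RmB g 2 y K) : |lap g (Sc g) y| ≤ 18 * K := by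
  rw [lap, lapG_congr EventuallyEq.rfl (rd_Sc_ev hg hy)]
  exact lap_loc (sec (L := loc0 (hg.isMetricOn y)) (b := (0, pt E3 y)) ⟨trivial, pt_mem_dom hy⟩)
    (rmB_pt h)

theorem ric_on_le (h : RmB g 0 y K) {f : Fin 3 → E3} (hf : ON (g y) f) (a b : Fin 3) :
    |Ric g y (f a) (f b)| ≤ 4 * K :=
  ric_loc (mkF (L := loc0 (hg.isMetricOn y)) (s := 0) trivial (pt_mem_dom hy)
    (f := f) (by rwa [← co_pt g y] at hf)) (rmB_pt h) a b

end static

theorem gr : GR :=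
  ⟨108, by norm_num, fun _ _ _ _ _ _ _ _ hg hy => ⟨gam_Sc_le hg hy, fun h =>
    (lap_Sc_le hg hy h).trans (by linarith [(abs_nonneg _).trans (lap_Sc_le hg hy h)])⟩⟩

theorem rt : RT := by
  refine ⟨288, by norm_num, fun M _ _ _ g I U y s K₀ K₂ h hc hi hs hy h0 h2 => ?_⟩
  have hI := Iv.of_convex hc hi
  have hg := h.met hs
  have hf := fr0_on (hg.symm y hy) (hg.pos y hy)
  have k1 := abs_le.1 (lap_Sc_le hg hy h2)
  have k2 : ∀ a b, Ric (g s) y (fr0 (g s y) a) (fr0 (g s y) b) ^ 2 ≤ 16 * K₀ ^ 2 :=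
    fun a b => by have := abs_le.1 (ric_on_le hg hy h0 hf a b); nlinarith [this.1, this.2]
  have k3 := Finset.sum_le_sum fun a (_ : a ∈ Finset.univ) =>
    Finset.sum_le_sum fun b (_ : b ∈ Finset.univ) => k2 a b
  have k4 : 0 ≤ ∑ a, ∑ b, Ric (g s) y (fr0 (g s y) a) (fr0 (g s y) b) ^ 2 := by positivity
  simp only [Finset.sum_const, Finset.card_univ, Fintype.card_fin, nsmul_eq_mul] at k3
  rw [(sc_evol h hI hs hy hf).derivWithin (hI.ud _ hs), abs_le]
  push_cast at k3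
  constructor <;> nlinarith [k1.1, k1.2, sq_nonneg K₀]

end Vale.Agent.P216KV
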