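import Vale.Agent.P216KV.Rig
import Vale.Agent.P216R.Flow

/-!
# P216KV/Main: rigidity of the soliton equation; closed locally split ancient solutions are round
-/

open scoped Manifold Topology ContDiff
open Set Filter Real

set_option maxSynthPendingDepth 3

noncomputable section

namespace Vale.Agent.P216KV

open Vale.Agent.P219.RG Vale.Agent.P216R Vale.Agent.P216K Vale.Agent.P216CP

variable {M : Type} [TopologicalSpace M] [ChartedSpace E3 M] [IsManifold 𝓘(ℝ, E3) ∞ M]
  {g : Ten E3 M} {U : Set M} {p : M}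

/-- geodesics of a compact manifold live forever -/
theorem mem_Life (hg : Met g U) (hH : Hs U) (hK : IsCompact U) (hp : p ∈ U) (v : E3) (t : ℝ) :
    t ∈ Life g U p v := by
  have k : ∀ (v : E3) (t : ℝ), 0 ≤ t → t ∈ Life g U p v := fun v t ht =>
    mem_Tm_of_compact hg hH hK Subset.rfl (pt_mem_dom hp) ht fun _ _ h => geo_mem hg hH h
  rcases le_total 0 t with h | h
  · exact k v t h
  · simpa using (mem_Life_smul (k := -1) (v := -v) hg hH).2 (k _ _ (by linarith))

theorem fm_ray (hg : Met g U) (hH : Hs U) (hl : ∀ v t, t ∈ Life g U p v) {u : ℝ → E3}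
    (hu : ContDiff ℝ ∞ u) : Fm g U fun q => ray g U p (u q.2) q.1 := by
  have k : ContDiff ℝ ∞ fun q : ℝ × ℝ => (q.1, u q.2) :=
    contDiff_fst.prodMk (hu.comp contDiff_snd)
  have c : Continuous fun q : ℝ × ℝ => ray g U p (u q.2) q.1 :=
    continuous_iff_continuousAt.2 fun q => ContinuousAt.comp
      (g := fun q : ℝ × E3 => ray g U p q.2 q.1) (f := fun q : ℝ × ℝ => (q.1, u q.2))
      (continuousAt_ray hg hH (hl _ _)) k.continuous.continuousAt
  have s : ∀ (q : ℝ × ℝ) a, ray g U p (u q.2) q.1 ∈ (chartAt E3 a).source →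
      ContDiffAt ℝ ∞ (ch (fun q => ray g U p (u q.2) q.1) a) q := fun q a ha =>
    (ContDiffAt.comp q (g := fun q : ℝ × E3 => stt (E := E3) (ray g U p q.2) a q.1)
      (contDiffAt_stt_ray hg hH (hl _ _) ha) k.contDiffAt).fst
  refine ⟨c, fun q => (isGeo_ray hg hH).mem _ (hl _ _), s, fun q a ha => ?_⟩
  have e : (fun t => fderiv ℝ (ch (fun q => ray g U p (u q.2) q.1) a) (t, q.2) (1, 0)) =ᶠ[𝓝 q.1]
      deriv (cc (E := E3) (ray g U p (u q.2)) a) := by
    filter_upwards [(c.comp (Continuous.prodMk_left q.2)).continuousAt.eventually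
      ((chartAt E3 a).open_source.mem_nhds ha)] with t ht using (hd1 (cd_d (s _ a ht))).deriv.symm
  rw [cov, ← (hd1' (s q a ha) (1, 0)).deriv, e.deriv_eq,
    ((isGeo_ray hg hH).eqn a _ (hl _ _) ha).2.2, e.eq_of_nhds]
  exact neg_add_cancel _

theorem k1b : K1B := by
  intro M _ _ _ g U L r hK hH hc hg h1 h2 h3 x hx
  have h : Hyp g U L r := ⟨hg, h1, h2, h3⟩
  obtain ⟨p, hp, hM⟩ := hK.exists_isMaxOn ⟨x, hx⟩ h2.continuousOn
  obtain ⟨p', -, hm⟩ := hK.exists_isMinOn ⟨x, hx⟩ h2.continuousOn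
  have hN : ∀ x ∈ U, gam g L L x = r * L x - exp (L x) - (r * L p - exp (L p)) := fun x hx => by
    have e : gam g L L p = 0 := by
      rw [gam, P210.R2.H53.gamG, IsLocalMax.fderiv_eq_zero, zero_apply]
      filter_upwards [(tendsto_symm_pt p).eventually (hg.isOpen.mem_nhds hp)] with z hz
      rw [rd_pt]; exact hM hz
    linarith [h.energy hc x hx p hp]
  refine h.const hc (fun y hy => ?_) x hx
  rcases le_or_gt (exp (L p)) r with hr | hr
  · have e1 : L y ≤ L p := hM hy
    have e2 := add_one_le_exp (L y - L p)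
    have e3 : exp (L y) = exp (L p) * exp (L y - L p) := by rw [← exp_add, add_sub_cancel]
    rw [hN y hy]
    nlinarith [exp_pos (L p)]
  obtain ⟨V, v1, hV, v3, b, hb⟩ := h.ex hp
  obtain ⟨e1, a1, a2, -⟩ := exists_unit (hg.pos p hp) (fderiv ℝ (rd E3 b p) (pt E3 p)) 0
  obtain ⟨e2, b1, b2, b3⟩ := exists_unit (hg.pos p hp) (fderiv ℝ (rd E3 b p) (pt E3 p)) (g p e1)
  have b4 := (hg.symm p hp e2 e1).trans b3
  have F := fm_ray hg hH (mem_Life hg hH hK hp) (u := fun θ => cos θ • e1 + sin θ • e2)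
    (by fun_prop)
  have s0 : ∀ v, ray g U p v 0 ∈ (chartAt E3 p).source := fun v => by
    rw [ray_zero hg hH]; exact mem_chart_source E3 p
  have hu : ∀ θ, fderiv ℝ (ch (fun q => ray g U p (cos q.2 • e1 + sin q.2 • e2) q.1) p) (0, θ)
      (1, 0) = cos θ • e1 + sin θ • e2 := fun θ => by
    have := dv_ray_zero (v := cos θ • e1 + sin θ • e2) hg hH hp
    rw [dv, ray_zero hg hH] at this
    exact (hd1 (cd_d (F.sm _ p (s0 _)))).deriv.symm.trans this
  refine (no_fam h F (fun _ => ray_zero hg hH) hu (u1 := fun θ => -sin θ • e1 + cos θ • e2)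
    (fun θ => ((hasDerivAt_cos θ).smul_const e1).add ((hasDerivAt_sin θ).smul_const e2))
    (fun θ => ?_) (fun θ => ?_) (fun hr θ => ?_) (fun s => by simp) hM hm hN hr).elim
  · simp only [map_add, map_smul, add_apply, smul_apply, smul_eq_mul, a1, b1, b3, b4]
    linarith [cos_sq_add_sin_sq θ]
  · simp only [map_add, map_smul, add_apply, smul_apply, smul_eq_mul, a1, b1, b3, b4]
    linarith [cos_sq_add_sin_sq θ]
  · have k : ray g U p (cos θ • e1 + sin θ • e2) 0 ∈ V := by rwa [ray_zero hg hH]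
    refine z_of (q := (0, θ)) h F hr v1 hV hb k ?_
    rw [F.one (q := (0, θ)) hV hb.smooth k (s0 _), hu, ch, ray_zero hg hH]
    simp only [map_add, map_smul, smul_eq_mul]
    rw [show chartAt E3 p p = pt E3 p from rfl, a2, b2, mul_zero, mul_zero, add_zero]

theorem rnd2 (hA : K1A) : RND2 := by
  intro M _ _ _ g U C hK hH hc hf hl h0 h1 h2 t ht x hx y hy
  have m : ∀ s ≤ 0, t + s ≤ 0 := fun s hs => add_nonpos ht hs
  obtain ⟨r, hr⟩ := hA M (fun s => g (t + s)) U C hK hH hc (hf.shift t m)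
    (fun x hx => let ⟨V, v1, v2, v3, b, hb⟩ := hl x hx; ⟨V, v1, v2, v3, b, fun s hs => hb _ (m s hs)⟩)
    (fun s hs => h0 _ (m s hs)) (fun s hs => h1 _ (m s hs)) fun s hs => h2 _ (m s hs)
  simp only [add_zero] at hr
  have hg := hf.met ht
  have := k1b M (g t) U _ r hK hH hc hg
    (fun x hx => let ⟨V, v1, v2, v3, b, hb⟩ := hl x hx; ⟨V, v1, v2, v3, b, fun _ _ => hb t ht⟩)
    (fun x hx => ((contDiffAt_log.2 (h0 t ht x hx).ne').contMDiffAt.comp x
      (hg.contMDiffAt_Sc hx)).contMDiffWithinAt) hr x hx y hy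
  exact log_injOn_pos (h0 t ht x hx) (h0 t ht y hy) this

end Vale.Agent.P216KV
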