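import Vale.Agent.P216KV.HL1
import Vale.Agent.P216T.Mod
import Vale.Agent.P216T.HLDef
import Vale.Agent.P216TK.Uc
import Vale.Agent.P216TO.Ori
import Vale.Agent.P216HL.Hl

/-!
# P216KV: the slope of a torus which lifts to the universal covering
-/

set_option linter.all false

open Set Topology Filter Multiplicative

noncomputable section

namespace Vale.Agent.P216KV

open Vale.Agent.P216T Vale.Agent.P216M
open Vale.Agent.P216HL (isOpen_slab band band_cpt hlpd)

variable {X : Type} [TopologicalSpace X] {F : (ℝ × ℝ) × ℝ → X} {a b : ℝ} {A : Set X}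

theorem convex_slab : Convex ℝ (slab a b) := by
  have : slab a b = (univ : Set (ℝ × ℝ)) ×ˢ Ioo a b := by
    ext p
    simp [slab]
  rw [this]
  exact convex_univ.prod (convex_Ioo a b)

theorem slab_mono {a' b' : ℝ} (h1 : a' ≤ a) (h2 : b ≤ b') : slab a b ⊆ slab a' b' :=
  fun _ k => ⟨h1.trans_lt k.1, k.2.trans_le h2⟩

/-- translation by a lattice vector -/
def sh (u : ℤ × ℤ) (z : (ℝ × ℝ) × ℝ) : (ℝ × ℝ) × ℝ := ((z.1.1 + u.1, z.1.2 + u.2), z.2)

/-- Lifts of a collar. -/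
theorem exists_lift {Pi Wt : Type} [Group Pi] [TopologicalSpace Wt] [MulAction Pi Wt] {W : Set X}
    {p : Wt → W} (h : Quo Pi p) (hab : a < b) (col : Collar F a b)
    (hW : ∀ z ∈ slab a b, F z ∈ W) :
    ∃ (Fh : (ℝ × ℝ) × ℝ → Wt) (mh : Multiplicative (ℤ × ℤ) →* Pi), ContinuousOn Fh (slab a b) ∧
      (∀ z ∈ slab a b, (p (Fh z) : X) = F z) ∧
      ∀ u : ℤ × ℤ, ∀ z ∈ slab a b, Fh (sh u z) = mh (ofAdd u) • Fh z := by
  classical
  obtain ⟨c, h1, h2⟩ := exists_between hab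
  have h0 : (((0 : ℝ), (0 : ℝ)), c) ∈ slab a b := ⟨h1, h2⟩
  generalize (((0 : ℝ), (0 : ℝ)), c) = z₀ at h0
  let f : (ℝ × ℝ) × ℝ → W := fun z => if k : z ∈ slab a b then ⟨F z, hW z k⟩ else ⟨F z₀, hW z₀ h0⟩
  have e : ∀ z ∈ slab a b, (f z : X) = F z := fun z k => by simp only [f, dif_pos k]
  obtain ⟨q₀, hq⟩ := h.surj (f z₀)
  obtain ⟨Fh, a1, a2, -⟩ := lift_convex h.cov convex_slab
    (IsInducing.subtypeVal.continuousOn_iff.2 (col.cont.congr e)) h0 hq
  have a3 : ∀ u, ∀ z ∈ slab a b, p (Fh z) = p (Fh (sh u z)) := fun u z k => Subtype.ext (by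
    rw [a2 z k, a2 (sh u z) k, e z k, e (sh u z) k]
    exact (col.eq_iff z k (sh u z) k).2 ⟨u.1, u.2, rfl⟩)
  choose g hg using fun u => h.orb _ _ (a3 u z₀ h0)
  have a4 : ∀ u, ∀ z ∈ slab a b, Fh (sh u z) = g u • Fh z := fun u z k =>
    h.cov.eqOn_of_comp_eqOn (g₁ := fun z => Fh (sh u z)) (g₂ := fun z => g u • Fh z)
      convex_slab.isPreconnected
      (a1.comp (Continuous.continuousOn (by unfold sh; fun_prop)) fun _ k => k)
      ((h.cont _).comp_continuousOn a1)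
      (fun z k => (a3 u z k).symm.trans (h.inv _ _).symm) h0 (hg u).symm k
  refine ⟨Fh, MonoidHom.mk' (fun u => g (toAdd u)) fun u v => h.cancel (x := Fh z₀) ?_, a1,
    fun z k => by rw [a2 z k, e z k], a4⟩
  rw [mul_smul, ← a4 _ z₀ h0, ← a4 _ z₀ h0, ← a4 _ (sh _ z₀) h0]
  congr 1
  simp only [sh, toAdd_mul, Prod.fst_add, Prod.snd_add, Int.cast_add]
  congr 2 <;> ring

/-- the side `A` of the collar `F` -/
structure St (F : (ℝ × ℝ) × ℝ → X) (a b : ℝ) (A : Set X) : Prop where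
  lt : a < b
  col : Collar F a b
  sep : ∀ c, a < c → c < b → ∃ U, SepT F a c b U (A ∪ F '' slab a c)

/-- the change of the height -/
def rho (c l r : ℝ) : ℝ := min r c + l * max (r - c) 0

theorem rho_le {c l r : ℝ} (h : r ≤ c) : rho c l r = r := by
  rw [rho, min_eq_left h, max_eq_right (sub_nonpos.2 h), mul_zero, add_zero]

theorem rho_ge {c l r : ℝ} (h : c ≤ r) : rho c l r = c + l * (r - c) := by
  rw [rho, min_eq_right h, max_eq_left (sub_nonneg.2 h)]

theorem rho_mem {a c d e r : ℝ} (h0 : a < c) (h1 : c < d) (h2 : c < e) (h3 : a < r) (h4 : r < d) :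
    a < rho c ((e - c) / (d - c)) r ∧ rho c ((e - c) / (d - c)) r < e := by
  rcases le_total r c with k | k
  · rw [rho_le k]
    exact ⟨h3, k.trans_lt h2⟩
  · rw [rho_ge k]
    have h5 : 0 < (e - c) / (d - c) := div_pos (sub_pos.2 h2) (sub_pos.2 h1)
    have h6 : (e - c) / (d - c) * (d - c) = e - c := div_mul_cancel₀ _ (sub_pos.2 h1).ne'
    constructor <;> nlinarith

theorem rho_rho {c d e : ℝ} (h1 : c < d) (h2 : c < e) (r : ℝ) :
    rho c ((d - c) / (e - c)) (rho c ((e - c) / (d - c)) r) = r := by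
  have h3 := sub_pos.2 h1
  have h4 := sub_pos.2 h2
  rcases le_total r c with k | k
  · rw [rho_le k, rho_le k]
  · rw [rho_ge k, rho_ge (le_add_of_nonneg_right (mul_nonneg (div_pos h4 h3).le (sub_nonneg.2 k)))]
    field_simp
    ring

namespace St

theorem disj (S : St F a b A) {z : (ℝ × ℝ) × ℝ} (hz : z ∈ slab a b) : F z ∉ A := fun k => by
  obtain ⟨c, h1, h2⟩ := exists_between hz.1
  obtain ⟨U, hU⟩ := S.sep c h1 (h2.trans hz.2)
  exact hU.disj.ne_of_mem (hU.mU ⟨h2, hz.2⟩) (.inl k) rfl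

theorem opn (S : St F a b A) {c : ℝ} (h1 : a < c) (h2 : c ≤ b) : IsOpen (A ∪ F '' slab a c) := by
  obtain ⟨d, h3, h4⟩ := exists_between h1
  obtain ⟨U, hU⟩ := S.sep d h3 (h4.trans_le h2)
  have := hU.oV.union (S.col.img _ (slab_mono le_rfl h2) isOpen_slab)
  rwa [union_assoc, union_eq_self_of_subset_left (image_mono (slab_mono le_rfl h4.le))] at this

theorem compl (S : St F a b A) {c : ℝ} (h1 : a < c) (h2 : c < b) {U : Set X}
    (hU : SepT F a c b U (A ∪ F '' slab a c)) {x : X} (hx : x ∉ U) : x ∈ A ∪ F '' slab a b := by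
  rcases hU.cov x with k | k | ⟨v, rfl⟩
  · exact absurd k hx
  · exact k.imp id fun k => image_mono (slab_mono le_rfl h2.le) k
  · exact .inr ⟨_, ⟨h1, h2⟩, rfl⟩

theorem conn [PreconnectedSpace X] (S : St F a b A) : IsPreconnected (A ∪ F '' slab a b) := by
  obtain ⟨c, h1, h2⟩ := exists_between S.lt
  obtain ⟨U, hU⟩ := S.sep c h1 h2
  have key : ∀ u v : Set X, IsOpen u → IsOpen v → A ∪ F '' slab a b ⊆ u ∪ v →
      (A ∪ F '' slab a b) ∩ (u ∩ v) = ∅ → F '' slab a b ⊆ u → A ∪ F '' slab a b ⊆ u := by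
    intro u v hu hv h3 h4 h5
    have h6 : ∀ x ∈ A ∪ F '' slab a b, x ∈ u → x ∉ v := fun x k1 k2 k3 =>
      (h4 ▸ (⟨k1, k2, k3⟩ : x ∈ (A ∪ F '' slab a b) ∩ (u ∩ v)) : x ∈ (∅ : Set X))
    have h7 : IsClopen ((A ∪ F '' slab a b) ∩ v) := by
      refine ⟨?_, (S.opn S.lt le_rfl).inter hv⟩
      rw [← isOpen_compl_iff]
      convert ((S.opn S.lt le_rfl).inter hu).union hU.oU using 1
      ext x
      constructor
      · intro k
        by_cases k1 : x ∈ U
        · exact .inr k1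
        · have k2 := S.compl h1 h2 hU k1
          exact .inl ⟨k2, (h3 k2).resolve_right fun k3 => k ⟨k2, k3⟩⟩
      · rintro (k | k) ⟨k1, k2⟩
        · exact h6 x k1 k.2 k2
        · rcases k1 with k1 | k1
          · exact hU.disj.ne_of_mem k (.inl k1) rfl
          · exact h6 x (.inr k1) (h5 k1) k2
    rcases isClopen_iff.1 h7 with e | e
    · exact fun x k => (h3 k).resolve_right fun k' =>
        (e ▸ (⟨k, k'⟩ : x ∈ (A ∪ F '' slab a b) ∩ v) : x ∈ (∅ : Set X))
    · have k : F (((0 : ℝ), (0 : ℝ)), c) ∈ F '' slab a b := ⟨_, ⟨h1, h2⟩, rfl⟩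
      exact absurd (e ▸ mem_univ _ : _ ∈ (A ∪ F '' slab a b) ∩ v).2 (h6 _ (.inr k) (h5 k))
  rw [isPreconnected_iff_subset_of_disjoint]
  intro u v hu hv h3 h4
  rcases isPreconnected_iff_subset_of_disjoint.1 (convex_slab.isPreconnected.image F S.col.cont)
    u v hu hv (subset_union_right.trans h3) (subset_eq_empty
      (inter_subset_inter_left _ subset_union_right) h4) with k | k
  · exact .inl (key u v hu hv h3 h4 k)
  · exact .inr (key v u hv hu (by rwa [union_comm v]) (by rwa [inter_comm v]) k)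

/-- the reparametrisation of the height -/
theorem rep (S : St F a b A) {c d e : ℝ} (h0 : a < c) (h1 : c < d) (h2 : c < e) (h3 : d ≤ b)
    (h4 : e ≤ b) : ∃ E : X → X, ContinuousOn E (A ∪ F '' slab a d) ∧ (∀ x ∈ A, E x = x) ∧
      ∀ z ∈ slab a d, E (F z) = F (z.1, rho c ((e - c) / (d - c)) z.2) := by
  classical
  let E : X → X := fun x => if k : ∃ z ∈ slab a d, F z = x then
    F (k.choose.1, rho c ((e - c) / (d - c)) k.choose.2) else x
  have h5 : ∀ z ∈ slab a d, ∀ v, (v, rho c ((e - c) / (d - c)) z.2) ∈ slab a b := fun z k v =>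
    slab_mono le_rfl h4 (rho_mem h0 h1 h2 k.1 k.2)
  have a1 : ∀ x ∈ A, E x = x := fun x k => dif_neg (by
    rintro ⟨z, hz, rfl⟩
    exact S.disj (slab_mono le_rfl h3 hz) k)
  have a2 : ∀ z ∈ slab a d, E (F z) = F (z.1, rho c ((e - c) / (d - c)) z.2) := fun z k => by
    have k' : ∃ z' ∈ slab a d, F z' = F z := ⟨z, k, rfl⟩
    simp only [E, dif_pos k']
    obtain ⟨k1, k2⟩ := k'.choose_spec
    generalize k'.choose = w at k1 k2
    obtain ⟨m, n, rfl⟩ := (S.col.eq_iff _ (slab_mono le_rfl h3 k1) _ (slab_mono le_rfl h3 k)).1 k2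
    exact (S.col.eq_iff _ (h5 w k1 _) _ (h5 w k1 _)).2 ⟨m, n, rfl⟩
  refine ⟨E, fun x hx => ContinuousAt.continuousWithinAt ?_, a1, a2⟩
  rcases hx with hx | hx
  · refine continuousAt_id.congr ?_
    filter_upwards [(S.opn h0 (h1.le.trans h3)).mem_nhds (.inl hx)] with y hy
    rcases hy with hy | ⟨z, hz, rfl⟩
    · exact (a1 y hy).symm
    · rw [a2 z (slab_mono le_rfl h1.le hz), rho_le hz.2.le]
      rfl
  · have a3 : ∀ W ⊆ slab a d, IsOpen W → IsOpen (F '' W) := fun W k =>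
      S.col.img W (k.trans (slab_mono le_rfl h3))
    refine (desc_cont (u := E) isOpen_slab a3 (ContinuousOn.congr ?_ a2)).continuousAt
      ((a3 _ subset_rfl isOpen_slab).mem_nhds hx)
    exact S.col.cont.comp (Continuous.continuousOn (by unfold rho; fun_prop)) fun z k => h5 z k _

/-- The fundamental group of the side is normally generated by the lattice. -/
theorem triv (S : St F a b A) (hX : SC X) {Pi Wt : Type} [Group Pi] [TopologicalSpace Wt]
    [MulAction Pi Wt] [ConnectedSpace Wt] {Φ : Wt → X} (hΦ : QuoO Pi Φ)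
    (hr : range Φ = A ∪ F '' slab a b) {Fh : (ℝ × ℝ) × ℝ → Wt}
    {mh : Multiplicative (ℤ × ℤ) →* Pi} (a1 : ContinuousOn Fh (slab a b))
    (a2 : ∀ z ∈ slab a b, Φ (Fh z) = F z)
    (a3 : ∀ u : ℤ × ℤ, ∀ z ∈ slab a b, Fh (sh u z) = mh (ofAdd u) • Fh z)
    {Γ : Type} [Group Γ] (χ : Pi →* Γ) (hχ : ∀ u, χ (mh u) = 1) : χ = 1 := by
  classical
  obtain ⟨c, h1, h2⟩ := exists_between S.lt
  obtain ⟨U, hU⟩ := S.sep c h1 h2
  letI : TopologicalSpace Γ := ⊥
  haveI : DiscreteTopology Γ := ⟨rfl⟩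
  letI : MulAction Γ X := { smul := fun _ x => x, one_smul := fun _ => rfl
                            mul_smul := fun _ _ _ => rfl }
  have q : Quo Γ (Prod.snd : Γ × X → X) :=
    ⟨loc_of continuous_snd isOpenMap_snd fun x => ⟨{x.1} ×ˢ univ,
      (isOpen_discrete _).prod isOpen_univ, ⟨rfl, trivial⟩,
      fun y hy z hz e => Prod.ext (hy.1.trans hz.1.symm) e⟩, fun x => ⟨(1, x), rfl⟩,
      fun g => ((continuous_of_discreteTopology (f := fun k : Γ => g * k)).comp
        continuous_fst).prodMk continuous_snd, fun _ _ => rfl,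
      fun x y e => ⟨y.1 * x.1⁻¹, Prod.ext (inv_mul_cancel_right _ _) e⟩,
      fun g x e => mul_eq_right.1 (congrArg Prod.fst e)⟩
  let κ : Wt → Γ := fun y => if k : ∃ l : Pi, l⁻¹ • y ∈ Fh '' slab a b then χ k.choose else 1
  have b1 : ∀ y (l : Pi), l⁻¹ • y ∈ Fh '' slab a b → κ y = χ l := fun y l k => by
    have k' : ∃ l : Pi, l⁻¹ • y ∈ Fh '' slab a b := ⟨l, k⟩
    simp only [κ, dif_pos k']
    obtain ⟨z, hz, e⟩ := k
    obtain ⟨w, hw, e'⟩ := k'.choose_spec
    generalize k'.choose = l' at e'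
    obtain ⟨m, n, e2⟩ := (S.col.eq_iff z hz w hw).1 (by
      rw [← a2 z hz, ← a2 w hw, e, e', hΦ.inv, hΦ.inv])
    have e3 := a3 (m, n) z hz
    rw [show sh (m, n) z = w from e2.symm, e, e', ← mul_smul, inv_smul_eq_iff, ← mul_smul] at e3
    have e4 := congrArg χ (hΦ.free _ _ e3.symm)
    rw [map_mul, map_mul, hχ, one_mul, map_inv, map_one] at e4
    exact mul_inv_eq_one.1 e4
  have b2 : ∀ y, Φ y ∈ id '' U → ∃ l : Pi, l⁻¹ • y ∈ Fh '' slab a b := fun y k => by
    rw [image_id] at k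
    rcases (hr ▸ mem_range_self y : Φ y ∈ A ∪ F '' slab a b) with k1 | ⟨z, hz, e⟩
    · exact absurd rfl (hU.disj.ne_of_mem k (.inl k1))
    · obtain ⟨l, rfl⟩ := hΦ.orb (Fh z) y ((a2 z hz).trans e)
      exact ⟨l, z, hz, (inv_smul_smul _ _).symm⟩
  have b3 : IsOpen (Fh '' slab a b) := open_of_lift hΦ.loc a1 (fun V k k' => by
    rw [image_congr (g := F) fun z hz => a2 z (k hz)]
    exact S.col.img V k k') subset_rfl isOpen_slab
  obtain ⟨d, h3, h4⟩ := exists_between h2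
  obtain ⟨E, -, e2, e3, -⟩ := q.exists_gd (U := U) (j := id)
    ⟨hU.oU, continuousOn_id, injOn_id _, fun V _ k => by rwa [image_id]⟩ hΦ χ
    (fun x => by
      rw [image_id, hr]
      exact (em (x ∈ U)).imp id (S.compl h1 h2 hU)) (θ := fun y => (κ y, Φ y))
    (fun y k => by
      obtain ⟨l, hl⟩ := b2 y k
      refine ContinuousAt.continuousWithinAt (((continuousAt_const (y := χ l)).congr ?_).prodMk
        hΦ.loc.continuous.continuousAt)
      filter_upwards [(b3.preimage (hΦ.cont l⁻¹)).mem_nhds hl] with y' hy'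
      exact (b1 y' l hy').symm)
    (fun y k => ⟨by rwa [image_id] at k, rfl⟩)
    (fun l y k => by
      obtain ⟨m, hm⟩ := b2 y k
      refine Prod.ext ?_ (hΦ.inv l y)
      show κ (l • y) = χ l * κ y
      rw [b1 y m hm, b1 (l • y) (l * m) (by rwa [mul_inv_rev, mul_smul, inv_smul_smul]), map_mul])
    ⟨Fh (((0 : ℝ), (0 : ℝ)), d), by
      rw [mem_preimage, image_id, a2 _ ⟨h1.trans h3, h4⟩]
      exact hU.mU ⟨h3, h4⟩⟩
  subst e2 e3
  obtain ⟨y⟩ : Nonempty Wt := inferInstance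
  obtain ⟨s, c1, c2, c3⟩ := hX.lift _ _ _ E.quo.cov id continuous_id (E.Φ y) (E.ι y) (E.pr_ι y)
  have c4 := E.quo.cov.eq_of_comp_eq (g₁ := fun y => s (E.Φ y)) (g₂ := E.ι)
    (c1.comp hΦ.loc.continuous) E.cont_ι (funext fun y => (c3 _).trans (E.pr_ι y).symm) y c2
  refine MonoidHom.ext fun l => E.free _ (E.ι y) ?_
  rw [← E.ι_smul, ← congrFun c4 (l • y), hΦ.inv, c2]

/-- The side has first cohomology with coefficients in the field of the top class. -/
theorem not_hasSec (S : St F a b A) [ConnectedSpace X] [LocallyConnectedSpace X] {H N k : Type}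
    [Group H] [MulAction H X] [MetricSpace N] [CompactSpace N] [Field k] {P : X → N} (q : Quo H P)
    (hi : InjOn P (A ∪ F '' slab a b)) (loc : P216.Ch2.D246.LocEuc N 3)
    (top : P216TE.TopCl N k) : ¬ HasSec (A ∪ F '' slab a b : Set X) (Multiplicative k) := by
  intro hs
  haveI : ConnectedSpace N := q.surj.connectedSpace q.continuous
  obtain ⟨w, hw, hw0⟩ := top
  have col : Collar (fun z => P (F z)) a b := ⟨q.continuous.comp_continuousOn S.col.cont,
    fun W k k' => by rw [← image_image]; exact q.isOpenMap _ (S.col.img W k k'),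
    fun z hz z' hz' => (hi.eq_iff (.inr ⟨z, hz, rfl⟩) (.inr ⟨z', hz', rfl⟩)).trans
      (S.col.eq_iff z hz z' hz')⟩
  refine hlpd loc hw hw0 S.lt col fun c h1 h2 => ?_
  obtain ⟨U, hU⟩ := S.sep c h1 h2
  have sub : A ∪ F '' slab a c ⊆ A ∪ F '' slab a b :=
    union_subset_union_right _ (image_mono (slab_mono le_rfl h2.le))
  refine ⟨(P '' Uᶜ)ᶜ, P '' (A ∪ F '' slab a c), ⟨?_, q.isOpenMap _ hU.oV, disjoint_left.2 ?_,
    fun y => ?_, fun v k => k ⟨_, hU.sU v, rfl⟩, ?_, ?_, fun z hz => ⟨_, hU.mV hz, rfl⟩⟩, ?_⟩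
  · rw [isOpen_iff_mem_nhds]
    intro y hy
    obtain ⟨x, rfl⟩ := q.surj y
    have h3 := ((band_cpt col h1 h2).isClosed.preimage q.continuous).isOpen_compl
    have h4 : x ∈ (P ⁻¹' band (fun z => P (F z)) c c)ᶜ := by
      rintro ⟨⟨v, r⟩, hz, e⟩
      obtain rfl : r = c := le_antisymm hz.2 hz.1
      exact hy ⟨_, hU.sU v, e⟩
    refine mem_of_superset (q.isOpenMap.image_mem_nhds
      (h3.connectedComponentIn.mem_nhds (mem_connectedComponentIn h4))) ?_
    rintro _ ⟨z, hz, rfl⟩ ⟨u, hu, e⟩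
    obtain ⟨g, rfl⟩ := q.orb z u e.symm
    rcases ((isPreconnected_connectedComponentIn (x := x)
      (F := (P ⁻¹' band (fun z => P (F z)) c c)ᶜ)).image _ (q.cont g).continuousOn).subset_or_subset
      hU.oU hU.oV hU.disj (by
        rintro _ ⟨v, hv, rfl⟩
        rcases hU.cov (g • v) with k | k | ⟨t, k⟩
        · exact .inl k
        · exact .inr k
        · have k' := connectedComponentIn_subset _ _ hv
          exact (k' ⟨(t, c), ⟨le_rfl, le_rfl⟩, (congrArg P k).trans (q.inv g v)⟩).elim) with k | k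
    · exact hu (k ⟨z, hz, rfl⟩)
    · exact hy ⟨g • x, fun k' => hU.disj.ne_of_mem k' (k ⟨x, mem_connectedComponentIn h4, rfl⟩) rfl,
        q.inv g x⟩
  · rintro _ k ⟨x, hx, rfl⟩
    exact k ⟨x, fun k' => hU.disj.ne_of_mem k' hx rfl, rfl⟩
  · by_cases hy : y ∈ P '' Uᶜ
    · obtain ⟨x, hx, rfl⟩ := hy
      rcases hU.cov x with k | k | ⟨v, rfl⟩
      · exact absurd k hx
      · exact .inr (.inl ⟨x, k, rfl⟩)
      · exact .inr (.inr ⟨v, rfl⟩)
    · exact .inl hy
  · rintro v ⟨x, hx, e⟩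
    exact hU.sV v (hi (sub hx) (.inr ⟨(v, c), ⟨h1, h2⟩, rfl⟩) e ▸ hx)
  · rintro z hz ⟨x, hx, e⟩
    exact hx (hi (S.compl h1 h2 hU hx) (.inr ⟨z, slab_mono h1.le le_rfl hz, rfl⟩) e ▸ hU.mU hz)
  · obtain ⟨d, h3, h4⟩ := exists_between h1
    obtain ⟨E, a1, a2, a3⟩ := S.rep h3 (h4.trans h2) h4 le_rfl h2.le
    obtain ⟨E', b1, b2, b3⟩ := S.rep h3 h4 (h4.trans h2) h2.le le_rfl
    have a4 : ∀ x ∈ A ∪ F '' slab a b, E x ∈ A ∪ F '' slab a c := by
      rintro x (k | ⟨z, hz, rfl⟩)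
      · rw [a2 x k]
        exact .inl k
      · exact .inr ⟨_, rho_mem h3 (h4.trans h2) h4 hz.1 hz.2, (a3 z hz).symm⟩
    have b4 : ∀ x ∈ A ∪ F '' slab a c, E' x ∈ A ∪ F '' slab a b ∧ E (E' x) = x := by
      rintro x (k | ⟨z, hz, rfl⟩)
      · rw [b2 x k, a2 x k]
        exact ⟨.inl k, rfl⟩
      · have := rho_mem h3 h4 (h4.trans h2) hz.1 hz.2
        rw [b3 z hz, a3 (z.1, rho d ((b - d) / (c - d)) z.2) this, rho_rho h4 (h4.trans h2)]
        exact ⟨.inr ⟨(z.1, rho d ((b - d) / (c - d)) z.2), this, rfl⟩, rfl⟩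
    let u : N → X := fun y => E' (Function.invFunOn P (A ∪ F '' slab a c) y)
    have b5 : ∀ x ∈ A ∪ F '' slab a c, u (P x) = E' x := fun x k =>
      congrArg E' ((hi.mono sub).leftInvOn_invFunOn k)
    have b6 := desc_cont (u := u) hU.oV (fun W _ k => q.isOpenMap W k) (b1.congr b5)
    have b7 : ∀ y : P '' (A ∪ F '' slab a c), u y ∈ A ∪ F '' slab a b := by
      rintro ⟨_, x, hx, rfl⟩
      rw [b5 x hx]
      exact (b4 x hx).1
    refine hasSec_retract hs (e := fun x => ⟨P (E x), _, a4 _ x.2, rfl⟩) (e' := fun y => ⟨u y, b7 y⟩)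
      ((q.continuous.comp a1.restrict).subtype_mk _) (b6.restrict.subtype_mk b7) ?_
    rintro ⟨_, x, hx, rfl⟩
    exact Subtype.ext (congrArg P ((congrArg E (b5 x hx)).trans (b4 x hx).2))

end St

/-- **HL** -/
theorem hl : HLGoal := by
  intro G _ N X _ _ _ _ _ _ P hX q F a b A hab col _ sep pi
  classical
  have S : St F a b A := ⟨hab, col, sep⟩
  haveI := hX.conn
  obtain ⟨-, -, _, -, -⟩ := q.env hX
  have oW := S.opn hab le_rfl
  have hi : InjOn P (A ∪ F '' slab a b) := fun x hx y hy e => by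
    obtain ⟨g, rfl⟩ := q.orb x y e
    rw [pi g x hx hy, one_smul]
  have em : IsOpenEmbedding fun x : (A ∪ F '' slab a b : Set X) => P x :=
    .of_continuous_injective_isOpenMap (q.continuous.comp continuous_subtype_val)
      (fun x y e => Subtype.ext (hi x.2 y.2 e)) (q.isOpenMap.comp oW.isOpenMap_subtype_val)
  letI := P216TK.lhCharts em.isLocalHomeomorph
  letI : ChartedSpace E3 (A ∪ F '' slab a b : Set X) := ChartedSpace.comp E3 N _
  haveI := isPreconnected_iff_preconnectedSpace.1 S.conn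
  obtain ⟨c, h1, h2⟩ := exists_between hab
  obtain ⟨Wt, _, _, p, hW, hp⟩ := P216TK.inC_pi1 E3 (W := (A ∪ F '' slab a b : Set X))
    ⟨F (((0 : ℝ), (0 : ℝ)), c), .inr ⟨_, ⟨h1, h2⟩, rfl⟩⟩
  haveI := hW.conn
  obtain ⟨Fh, mh, a1, a2, a3⟩ := exists_lift hp hab col fun z k => .inr ⟨z, k, rfl⟩
  have hΦ : QuoO _ fun y => (p y : X) :=
    ⟨oW.isOpenEmbedding_subtypeVal.isLocalHomeomorph.comp hp.loc, hp.cont,
      fun g y => congrArg _ (hp.inv g y), fun x y e => hp.orb x y (Subtype.ext e), hp.free⟩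
  have hr : range (fun y => (p y : X)) = A ∪ F '' slab a b := by
    rw [show (fun y => (p y : X)) = Subtype.val ∘ p from rfl, hp.surj.range_comp,
      Subtype.range_coe]
  rcases grp mh fun Γ _ χ k => S.triv hX hΦ hr a1 a2 a3 χ k with ⟨π, i, j, h3, h4⟩ | ⟨r, hr, h3⟩
  · haveI := metrizable N
    haveI := em.isEmbedding.metrizableSpace
    letI := TopologicalSpace.metrizableSpaceMetric (A ∪ F '' slab a b : Set X)
    obtain ⟨T, b1, b2⟩ := exists_T hp π
    let θ : X → AddCircle (1 : ℝ) := fun x => T (Function.invFun (fun y => (p y : X)) x)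
    have b3 : ∀ y, θ (p y) = T y := fun y => by
      obtain ⟨l, hl⟩ := hΦ.orb y _ (Function.invFun_eq (f := fun y => (p y : X)) ⟨y, rfl⟩).symm
      simp only [θ]
      have : (((toAdd (π l) : ℤ) : ℝ) : AddCircle (1 : ℝ)) = 0 :=
        (AddCircle.coe_eq_zero_iff _).2 ⟨toAdd (π l), by simp⟩
      rw [← hl, b2, AddCircle.coe_add, this, add_zero]
    refine ⟨θ, fun z => T (Fh z), i, j, ?_, b1.comp_continuousOn a1, h3, fun z hz =>
      ⟨by rw [← a2 z hz, b3], ?_, ?_⟩⟩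
    · rw [← hr, ← image_univ]
      exact desc_cont isOpen_univ (fun W _ k => hΦ.loc.isOpenMap W k)
        (((AddCircle.continuous_mk' _).comp b1).congr fun y => (b3 y).symm).continuousOn
    · simpa [sh, b2, h4] using congrArg T (a3 (1, 0) z hz)
    · simpa [sh, b2, h4] using congrArg T (a3 (0, 1) z hz)
  · haveI := Fact.mk hr
    obtain ⟨H, N', _, _, P', -, q', loc, top⟩ := P216TO.ori_sub r q hX
    refine absurd (hp.hasSec hW h3) (S.not_hasSec q' (fun x hx y hy e => ?_) loc top)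
    obtain ⟨g, rfl⟩ := q'.orb x y e
    exact hi hx hy (q.inv g x).symm

end Vale.Agent.P216KV
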