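import Vale.Agent.P216KV.Chart
import Vale.Agent.P216K.Defs
import Vale.Agent.P216R.Nat
import Vale.Agent.P216CP.Exp

/-!
# P216KV/Fam: the soliton equation on a manifold; two parameter families of geodesics
-/

open scoped Manifold Topology ContDiff
open Set Filter Real

set_option maxSynthPendingDepth 3

noncomputable section

namespace Vale.Agent.P216KV

open Vale.Agent.P219.RG Vale.Agent.P216R Vale.Agent.P216K
open Vale.Agent.P216DC (Spl)
open Vale.Agent.P210.R2.H53 (gradG gamG hessG)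

variable {M : Type} [TopologicalSpace M] [ChartedSpace E3 M] [IsManifold 𝓘(ℝ, E3) ∞ M]
  {g : Ten E3 M} {U V V' : Set M} {L b b' f : M → ℝ} {r : ℝ} {a : M} {u : E3}

theorem cd_rd (hV : IsOpen V) (hf : ContMDiffOn 𝓘(ℝ, E3) 𝓘(ℝ, ℝ) ∞ f V) (hu : u ∈ dom E3 a V) :
    ContDiffAt ℝ ∞ (rd E3 f a) u :=
  ((hf.contMDiffAt (hV.mem_nhds hu.2)).comp u (sm_symm hu.1)).contDiffAt

theorem cd_pt (hV : IsOpen V) (hf : ContMDiffOn 𝓘(ℝ, E3) 𝓘(ℝ, ℝ) ∞ f V) (ha : a ∈ V) :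
    ContDiffAt ℝ ∞ (rd E3 f a) (pt E3 a) := cd_rd hV hf (pt_mem_dom ha)

theorem fderiv_rd (hV : IsOpen V) (hf : ContMDiffOn 𝓘(ℝ, E3) 𝓘(ℝ, ℝ) ∞ f V) (hu : u ∈ dom E3 a V)
    (v : E3) : fderiv ℝ (rd E3 f a) u v =
      df f ((chartAt E3 a).symm u) (md E3 (chartAt E3 a).symm u v) := by
  rw [← mfderiv_eq_fderiv, rd, mfderiv_comp u
    ((hf.contMDiffAt (hV.mem_nhds hu.2)).mdifferentiableAt (by simp)) (sm_symm hu.1).md]
  rfl

theorem gam_rd (hg : Met g U) (hV : IsOpen V) (hVU : V ⊆ U)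
    (hf : ContMDiffOn 𝓘(ℝ, E3) 𝓘(ℝ, ℝ) ∞ f V) (hb : ContMDiffOn 𝓘(ℝ, E3) 𝓘(ℝ, ℝ) ∞ b V)
    (hu : u ∈ dom E3 a V) :
    gamG (co g a) (rd E3 f a) (rd E3 b a) u = gam g f b ((chartAt E3 a).symm u) :=
  (gam_model _ _ _ _).symm.trans ((li_comap hg (ld_symm a) hu.1 (hVU hu.2)).gam
    (cd_d (cd_pt hV hf hu.2)) (cd_d (cd_pt hV hb hu.2)))

theorem hess_rd (hg : Met g U) (hV : IsOpen V) (hVU : V ⊆ U)
    (hf : ContMDiffOn 𝓘(ℝ, E3) 𝓘(ℝ, ℝ) ∞ f V) (hu : u ∈ dom E3 a V) :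
    hessG (co g a) (rd E3 f a) u = comap (chartAt E3 a).symm (hess g f) u :=
  (hess_model _ _ _).symm.trans ((li_comap hg (ld_symm a) hu.1 (hVU hu.2)).hess
    ((cd_pt hV hf hu.2).of_le two_le_infty))

omit [IsManifold 𝓘(ℝ, E3) ∞ M] in
theorem const_of (hc : IsPreconnected U)
    (h : ∀ x ∈ U, ∀ᶠ z in 𝓝 (pt E3 x), HasFDerivAt (rd E3 f x) (0 : E3 →L[ℝ] ℝ) z) :
    ∀ x ∈ U, ∀ y ∈ U, f x = f y := fun x hx y hy => by
  refine hc.induction₂' (fun x y => f x = f y) (fun x hx => ?_) (fun _ _ _ _ _ _ => Eq.trans) hx hy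
  obtain ⟨ε, hε, h⟩ := Metric.eventually_nhds_iff_ball.1 (h x hx)
  have hs := mem_chart_source E3 x
  filter_upwards [nhdsWithin_le_nhds (((chartAt E3 x).continuousAt hs).eventually
    (Metric.ball_mem_nhds _ hε)), nhdsWithin_le_nhds ((chartAt E3 x).open_source.mem_nhds hs)]
    with y h1 h2
  have := Metric.isOpen_ball.is_const_of_fderiv_eq_zero (convex_ball (pt E3 x) ε).isPreconnected
    (fun x hx => (h x hx).differentiableAt.differentiableWithinAt) (fun x hx => (h x hx).fderiv) h1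
    (Metric.mem_ball_self hε)
  rw [rd_pt, rd, Function.comp_apply, (chartAt E3 x).left_inv h2] at this
  exact ⟨this.symm, this⟩

/-- the standing assumptions -/
structure Hyp (g : Ten E3 M) (U : Set M) (L : M → ℝ) (r : ℝ) : Prop where
  met : Met g U
  lsp : LSp (fun _ => g) univ U
  sm : ContMDiffOn 𝓘(ℝ, E3) 𝓘(ℝ, ℝ) ∞ L U
  eq : SolEq g U L r

omit [IsManifold 𝓘(ℝ, E3) ∞ M] in
theorem Hyp.ex (h : Hyp g U L r) {x : M} (hx : x ∈ U) :
    ∃ V ⊆ U, IsOpen V ∧ x ∈ V ∧ ∃ b, Spl g V b :=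
  let ⟨V, h1, h2, h3, b, h4⟩ := h.lsp x hx
  ⟨V, h1, h2, h3, b, h4 0 trivial⟩

theorem Hyp.sol (h : Hyp g U L r) (hVU : V ⊆ U) (hV : IsOpen V) (hb : Spl g V b) (a : M) :
    Sol (co g a) (dom E3 a V) (rd E3 L a) (rd E3 b a) r where
  met := (h.met.mono hV hVU).isMetricOn a
  sl _ hz := cd_rd hV (h.sm.mono hVU) hz
  sb _ hz := cd_rd hV hb.smooth hz
  hb z hz := by
    rw [hess_rd h.met hV hVU hb.smooth hz]
    ext v w
    rw [comap_apply, hb.hess _ hz.2]; rfl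
  ub z hz := (gam_rd h.met hV hVU hb.smooth hb.smooth hz).trans (hb.unit _ hz.2)
  lb z hz := (gam_rd h.met hV hVU (h.sm.mono hVU) hb.smooth hz).trans (h.eq V hVU hV b hb _ hz.2).1
  hl z hz v w := by
    rw [hess_rd h.met hV hVU (h.sm.mono hVU) hz, comap_apply, (h.eq V hVU hV b hb _ hz.2).2,
      fderiv_rd hV hb.smooth hz, fderiv_rd hV hb.smooth hz]
    rfl

theorem Hyp.energy (h : Hyp g U L r) (hc : IsPreconnected U) : ∀ x ∈ U, ∀ y ∈ U,
    gam g L L x - (r * L x - exp (L x)) = gam g L L y - (r * L y - exp (L y)) := by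
  refine const_of (f := fun x => gam g L L x - (r * L x - exp (L x))) hc fun x hx => ?_
  obtain ⟨V, h1, h2, h3, b, h4⟩ := h.ex hx
  have o := isOpen_dom (E := E3) x h2
  filter_upwards [o.mem_nhds (pt_mem_dom h3)] with z hz
  refine ((h.sol h1 h2 h4 x).dN hz).congr_of_eventuallyEq ?_
  filter_upwards [o.mem_nhds hz] with y hy
  rw [gam_rd h.met h2 h1 (h.sm.mono h1) (h.sm.mono h1) hy]
  rfl

theorem Hyp.const (h : Hyp g U L r) (hc : IsPreconnected U) (h0 : ∀ x ∈ U, gam g L L x ≤ 0) :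
    ∀ x ∈ U, ∀ y ∈ U, L x = L y := by
  refine const_of hc fun x hx => ?_
  filter_upwards [(isOpen_dom (E := E3) x h.met.isOpen).mem_nhds (pt_mem_dom hx)] with z hz
  have hG := h.met.isMetricOn x
  have h1 := h0 _ hz.2
  rw [← gam_rd h.met h.met.isOpen Subset.rfl h.sm h.sm hz, gamG, ← P216S.grad_spec hG hz] at h1
  refine (cd_d (cd_rd h.met.isOpen h.sm hz)).hasFDerivAt.congr_fderiv
    (ContinuousLinearMap.ext fun v => ?_)
  rw [← P216S.grad_spec hG hz, hG.eq_zero hz (h1.antisymm (hG.nonneg hz _)), map_zero]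

/-- a family read in a chart -/
def ch (c : ℝ × ℝ → M) (a : M) (q : ℝ × ℝ) : E3 := chartAt E3 a (c q)

/-- inner products of coordinate derivatives -/
def ip (g : Ten E3 M) (c : ℝ × ℝ → M) (v w q : ℝ × ℝ) : ℝ :=
  g (c q) (fderiv ℝ (ch c (c q)) q v) (fderiv ℝ (ch c (c q)) q w)

/-- a smooth family of geodesics -/
structure Fm (g : Ten E3 M) (U : Set M) (c : ℝ × ℝ → M) : Prop where
  cont : Continuous c
  mem : ∀ q, c q ∈ U
  sm : ∀ q a, c q ∈ (chartAt E3 a).source → ContDiffAt ℝ ∞ (ch c a) q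
  geo : ∀ q a, c q ∈ (chartAt E3 a).source → cov (co g a) (ch c a) q (1, 0) (1, 0) = 0

variable {c : ℝ × ℝ → M} {q : ℝ × ℝ}

omit [IsManifold 𝓘(ℝ, E3) ∞ M] in
theorem ch_mem (ha : c q ∈ (chartAt E3 a).source) (hq : c q ∈ V) : ch c a q ∈ dom E3 a V :=
  mem_dom ha hq

namespace Fm

omit [IsManifold 𝓘(ℝ, E3) ∞ M] in
theorem ev (F : Fm g U c) (ha : c q ∈ (chartAt E3 a).source) :
    ∀ᶠ p in 𝓝 q, c p ∈ (chartAt E3 a).source :=
  F.cont.continuousAt.eventually ((chartAt E3 a).open_source.mem_nhds ha)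

theorem ip_eq (F : Fm g U c) (ha : c q ∈ (chartAt E3 a).source) (v w : ℝ × ℝ) :
    ip g c v w q = co g a (ch c a q) (fderiv ℝ (ch c a) q v) (fderiv ℝ (ch c a) q w) := by
  have hs := mem_chart_source E3 (c q)
  have e := fun v => P216CP.fderiv_chart_trans F.cont.continuousAt ha hs (cd_d (F.sm q a ha)) v
  rw [ip, ← P216CP.co_self]
  exact (congrArg₂ (fun v w => co g (c q) (chartAt E3 (c q) (c q)) v w) (e v) (e w)).trans
    (P216CP.co_compat' g ha hs _ _)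

theorem ip_d (F : Fm g U c) (hg : Met g U) (ha : c q ∈ (chartAt E3 a).source) (v w : ℝ × ℝ) :
    DifferentiableAt ℝ (ip g c v w) q ∧ ∀ d, fderiv ℝ (ip g c v w) q d =
      co g a (ch c a q) (cov (co g a) (ch c a) q d v) (fderiv ℝ (ch c a) q w) +
      co g a (ch c a q) (fderiv ℝ (ch c a) q v) (cov (co g a) (ch c a) q d w) := by
  obtain ⟨D, h1, h2⟩ := d_met (hg.isMetricOn a) (ch_mem ha (F.mem q)) (F.sm q a ha) v w
  have h3 := h1.congr_of_eventuallyEq ((F.ev ha).mono fun p hp => F.ip_eq hp v w)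
  exact ⟨h3.differentiableAt, fun d => by rw [h3.fderiv, h2]⟩

omit [IsManifold 𝓘(ℝ, E3) ∞ M] in
theorem comp_ev (F : Fm g U c) (ha : c q ∈ (chartAt E3 a).source) (f : M → ℝ) :
    f ∘ c =ᶠ[𝓝 q] rd E3 f a ∘ ch c a := (F.ev ha).mono fun p hp => by
  simp only [Function.comp, rd, ch, (chartAt E3 a).left_inv hp]

variable (F : Fm g U c) (hV : IsOpen V) (hf : ContMDiffOn 𝓘(ℝ, E3) 𝓘(ℝ, ℝ) ∞ f V) (hq : c q ∈ V)
include F hV hf hq

theorem cd : ContDiffAt ℝ ∞ (f ∘ c) q :=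
  have ha := mem_chart_source E3 (c q)
  ((cd_rd hV hf (ch_mem ha hq)).comp q (F.sm q _ ha)).congr_of_eventuallyEq (F.comp_ev ha f)

theorem one (ha : c q ∈ (chartAt E3 a).source) (v : ℝ × ℝ) :
    fderiv ℝ (f ∘ c) q v = fderiv ℝ (rd E3 f a) (ch c a q) (fderiv ℝ (ch c a) q v) := by
  rw [(F.comp_ev ha f).fderiv_eq, d_one (cd_rd hV hf (ch_mem ha hq)) (F.sm q a ha)]

theorem two (ha : c q ∈ (chartAt E3 a).source) (d v : ℝ × ℝ) :
    fderiv ℝ (fderiv ℝ (f ∘ c)) q d v = hessG (co g a) (rd E3 f a) (ch c a q)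
      (fderiv ℝ (ch c a) q d) (fderiv ℝ (ch c a) q v) +
      fderiv ℝ (rd E3 f a) (ch c a q) (cov (co g a) (ch c a) q d v) := by
  rw [(F.comp_ev ha f).fderiv.fderiv_eq, d_two _ (cd_rd hV hf (ch_mem ha hq)) (F.sm q a ha)]

end Fm

/-- the coordinate derivative is orthogonal to the line factor -/
def Z (g : Ten E3 M) (U : Set M) (c : ℝ × ℝ → M) (v q : ℝ × ℝ) : Prop :=
  ∀ V ⊆ U, IsOpen V → ∀ b, Spl g V b → c q ∈ V → fderiv ℝ (b ∘ c) q v = 0

section Z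

variable (h : Hyp g U L r) (F : Fm g U c) (hr : ∀ x ∈ U, exp (L x) = r → gam g L L x ≠ 0)
include h F hr

theorem z_of (hVU : V ⊆ U) (hV : IsOpen V) (hb : Spl g V b) (hq : c q ∈ V) {v : ℝ × ℝ}
    (h0 : fderiv ℝ (b ∘ c) q v = 0) : Z g U c v q := fun V' h1 h2 b' h3 h4 => by
  have ha := mem_chart_source E3 (c q)
  obtain ⟨ε, e⟩ := (h.sol hVU hV hb (c q)).cons (h.sol h1 h2 h3 (c q)) (pt_mem_dom hq)
    (pt_mem_dom h4) fun k1 k2 => hr _ (F.mem q) (by rwa [rd_pt] at k1) (by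
      rw [gam, gamG, k2]; rfl)
  rw [F.one hV hb.smooth hq ha] at h0
  rw [F.one h2 h3.smooth h4 ha]
  exact (congrArg (fun A : E3 →L[ℝ] ℝ => A _) e).trans (by
    rw [smul_apply, smul_eq_mul]; exact mul_eq_zero_of_right ε h0)

theorem z_prop {v : ℝ × ℝ} (h2 : ∀ q, ∀ V ⊆ U, IsOpen V → ∀ b, Spl g V b → c q ∈ V →
    fderiv ℝ (fderiv ℝ (b ∘ c)) q (1, 0) v = 0) {θ : ℝ} (h0 : Z g U c v (0, θ)) (s : ℝ) :
    Z g U c v (s, θ) := by
  have k : IsLocallyConstant fun s => Z g U c v (s, θ) := by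
    refine (IsLocallyConstant.iff_eventually_eq _).2 fun s => ?_
    obtain ⟨V, h1, hV, h3, b, hb⟩ := h.ex (F.mem (s, θ))
    have e : ∀ᶠ t in 𝓝 s, c (t, θ) ∈ V :=
      (F.cont.comp (Continuous.prodMk_left θ)).continuousAt.eventually (hV.mem_nhds h3)
    filter_upwards [e, ev_const (e.mono fun t ht =>
      h2 _ V h1 hV b hb ht ▸ hd1' (F.cd hV hb.smooth ht) v)] with t t1 t2
    exact propext ⟨fun k => z_of h F hr h1 hV hb h3 (t2.symm.trans (k V h1 hV b hb t1)),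
      fun k => z_of h F hr h1 hV hb t1 (t2.trans (k V h1 hV b hb h3))⟩
  exact (k.apply_eq_of_preconnectedSpace 0 s) ▸ h0

theorem z_one (h0 : ∀ θ, Z g U c (1, 0) (0, θ)) (q : ℝ × ℝ) : Z g U c (1, 0) q :=
  z_prop h F hr (fun q V h1 hV b hb hq => by
    have ha := mem_chart_source E3 (c q)
    rw [F.two hV hb.smooth hq ha, F.geo q _ ha, (h.sol h1 hV hb _).hb _ (ch_mem ha hq)]
    simp) (h0 q.2) q.1

theorem z_two (h0 : ∀ θ, Z g U c (1, 0) (0, θ)) {p : M} (hp : ∀ θ, c (0, θ) = p) (q : ℝ × ℝ) :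
    Z g U c (0, 1) q := by
  refine z_prop h F hr (fun q V h1 hV b hb hq => ?_) (fun V h1 hV b hb hq => ?_) q.1
  · rw [cd_symm (F.cd hV hb.smooth hq)]
    refine (hd2' (F.cd hV hb.smooth hq) (1, 0)).unique ((hasDerivAt_const q.2 0).congr_of_eventuallyEq ?_)
    filter_upwards [(F.cont.comp (Continuous.prodMk_right q.1)).continuousAt.eventually
      (hV.mem_nhds hq)] with t ht using z_one h F hr h0 _ V h1 hV b hb ht
  · refine (hd2 (cd_d (F.cd hV hb.smooth hq))).unique ?_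
    simpa only [Function.comp, hp] using hasDerivAt_const q.2 (b p)

end Z

end Vale.Agent.P216KV
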