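import Vale.Agent.P216R.Defs

/-!
# P216KV/Alg: real variable and linear algebra lemmas for the rigidity of rotational solitons
-/

open scoped Topology
open Set Filter Real

noncomputable section

namespace Vale.Agent.P216KV

open Vale.Agent.P216R

/-- trapezoid rule for the exponential function -/
theorem trap {d : ℝ} (hd : 0 < d) : 2 * (exp d - 1) < d * (1 + exp d) := by
  have h : StrictMonoOn (fun d : ℝ => d * (1 + exp d) - 2 * (exp d - 1)) (Ici 0) := by
    refine strictMonoOn_of_deriv_pos (convex_Ici 0) (by fun_prop) fun x hx => ?_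
    rw [interior_Ici] at hx
    have h1 := ((hasDerivAt_id x).mul ((hasDerivAt_exp x).const_add 1)).sub
      (((hasDerivAt_exp x).sub_const 1).const_mul 2)
    have h2 := h1.deriv
    simp only [id, one_mul] at h2
    erw [h2]
    have h3 := add_one_lt_exp (neg_ne_zero.2 (ne_of_gt hx))
    have h4 : exp (-x) * exp x = 1 := by rw [← exp_add, neg_add_cancel, exp_zero]
    nlinarith [exp_pos x]
  have := h self_mem_Ici hd.le hd
  simp only [exp_zero, zero_mul, sub_self, mul_zero] at this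
  linarith

theorem two_zero {r a c : ℝ} (hac : a < c) (h : r * a - exp a = r * c - exp c) :
    exp a < r ∧ r - exp a < exp c - r := by
  have hd := sub_pos.2 hac
  have e : exp c = exp a * exp (c - a) := by rw [← exp_add, add_sub_cancel]
  have h1 := add_one_lt_exp hd.ne'
  have h2 := trap hd
  have h3 := exp_pos a
  constructor
  · refine lt_of_mul_lt_mul_right ?_ hd.le
    nlinarith
  · refine lt_of_mul_lt_mul_right ?_ hd.le
    nlinarith

/-- the first turning point of the profile -/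
theorem first_zero {y y1 : ℝ → ℝ} {r m : ℝ} (h1 : ∀ s, HasDerivAt y (y1 s) s)
    (h2 : ∀ s, HasDerivAt y1 ((r - exp (y s)) / 2) s) (h0 : y1 0 = 0) (hm : ∀ s, m ≤ y s)
    (hr : r < exp (y 0)) : ∃ T > 0, y1 T = 0 ∧ (∀ s ∈ Ioo 0 T, y1 s < 0) ∧ y T < y 0 := by
  have c1 : Continuous y := continuous_iff_continuousAt.2 fun s => (h1 s).continuousAt
  have c2 : Continuous y1 := continuous_iff_continuousAt.2 fun s => (h2 s).continuousAt
  have d1 : Differentiable ℝ y := fun s => (h1 s).differentiableAt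
  have d2 : Differentiable ℝ y1 := fun s => (h2 s).differentiableAt
  obtain ⟨δ, hδ, hneg⟩ : ∃ δ > 0, ∀ s ∈ Ioc 0 δ, y1 s < 0 := by
    have e := (h2 0).tendsto_slope_zero_right.eventually (gt_mem_nhds
      (show (r - exp (y 0)) / 2 < 0 by linarith))
    obtain ⟨δ, hδ, h⟩ := (nhdsGT_basis_Ioc 0).eventually_iff.1 e
    refine ⟨δ, hδ, fun s hs => ?_⟩
    have := h hs
    simp only [zero_add, h0, sub_zero, smul_eq_mul] at this
    exact neg_of_mul_neg_right this (inv_nonneg.2 hs.1.le)
  have hne : ({s | 0 ≤ y1 s} ∩ Ici δ).Nonempty := by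
    by_contra hn
    have hlt : ∀ s, δ ≤ s → y1 s < 0 := fun s hs => not_le.1 fun h => hn ⟨s, h, hs⟩
    have anti : AntitoneOn y (Ici δ) := antitoneOn_of_deriv_nonpos (convex_Ici δ) c1.continuousOn
      d1.differentiableOn fun s hs => (h1 s).deriv ▸ (hlt s (interior_subset hs)).le
    by_cases hc : ∀ s, δ ≤ s → r ≤ exp (y s)
    · have an : AntitoneOn y1 (Ici δ) := antitoneOn_of_deriv_nonpos (convex_Ici δ)
        c2.continuousOn d2.differentiableOn fun s hs => by
          rw [(h2 s).deriv]; linarith [hc s (interior_subset hs)]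
      have k := hlt δ le_rfl
      set s := δ + (y δ - m + 1) / -y1 δ with hs
      have q : 0 ≤ (y δ - m + 1) / -y1 δ := div_nonneg (by linarith [hm δ]) (by linarith)
      have := (convex_Ici δ).image_sub_le_mul_sub_of_deriv_le c1.continuousOn d1.differentiableOn
        (C := y1 δ) (fun x hx => (h1 x).deriv ▸ an self_mem_Ici (interior_subset hx)
          (interior_subset hx)) δ self_mem_Ici s (by simp only [hs, mem_Ici]; linarith)
        (by linarith)
      rw [hs, add_sub_cancel_left, div_neg, mul_neg, mul_div_cancel₀ _ k.ne] at this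
      linarith [hm (δ + -((y δ - m + 1) / y1 δ))]
    · push Not at hc
      obtain ⟨t, ht, hc⟩ := hc
      have k : 0 < (r - exp (y t)) / 2 := by linarith
      set s := t + -y1 t / ((r - exp (y t)) / 2) with hs
      have q : 0 ≤ -y1 t / ((r - exp (y t)) / 2) := div_nonneg (by linarith [hlt t ht]) k.le
      have := (convex_Ici t).mul_sub_le_image_sub_of_le_deriv c2.continuousOn d2.differentiableOn
        (C := (r - exp (y t)) / 2) (fun x hx => by
          have hx' : t ≤ x := interior_subset hx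
          rw [(h2 x).deriv]
          linarith [exp_le_exp.2 (anti ht (ht.trans hx') hx')]) t self_mem_Ici s
        (by simp only [hs, mem_Ici]; linarith) (by linarith)
      rw [hs, add_sub_cancel_left, mul_div_cancel₀ _ k.ne'] at this
      linarith [hlt (t + -y1 t / ((r - exp (y t)) / 2)) (by linarith)]
  obtain ⟨T, hT⟩ : ∃ T, IsLeast ({s | 0 ≤ y1 s} ∩ Ici δ) T :=
    ⟨_, ((isClosed_le continuous_const c2).inter isClosed_Ici).isLeast_csInf hne
      ⟨δ, fun s hs => hs.2⟩⟩
  have T0 : 0 < T := hδ.trans_le hT.1.2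
  have hlt : ∀ s ∈ Ioo 0 T, y1 s < 0 := fun s hs => by
    rcases le_total s δ with h | h
    · exact hneg s ⟨hs.1, h⟩
    · exact not_le.1 fun k => absurd (hT.2 ⟨k, h⟩) (not_le.2 hs.2)
  refine ⟨T, T0, le_antisymm ?_ hT.1.1, hlt, ?_⟩
  · exact le_of_tendsto (c2.continuousAt.tendsto.mono_left (nhdsWithin_le_nhds (s := Iio T)))
      (by filter_upwards [Ioo_mem_nhdsLT T0] with s hs using (hlt s hs).le)
  · exact strictAntiOn_of_deriv_neg (convex_Icc 0 T) c1.continuousOn
      (fun s hs => (h1 s).deriv ▸ hlt s (by rwa [interior_Icc] at hs)) (left_mem_Icc.2 T0.le)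
      (right_mem_Icc.2 T0.le) T0

/-- comparison of two quadratic expressions at a common zero -/
theorem end_lim {F : Type} [NormedAddCommGroup F] [NormedSpace ℝ F] {A : ℝ → Bil F} {J : ℝ → F}
    {y : ℝ → ℝ} {K : F} {s₀ k C : ℝ} {l : Filter ℝ} [l.NeBot] (hl : l ≤ 𝓝[≠] s₀)
    (hA : ContinuousAt A s₀) (hJ : HasDerivAt J K s₀) (hy : HasDerivAt y k s₀) (J0 : J s₀ = 0)
    (y0 : y s₀ = 0) (h : ∀ᶠ s in l, A s (J s) (J s) = C * y s ^ 2) : A s₀ K K = C * k ^ 2 := by
  have h1 := (hasDerivAt_iff_tendsto_slope.1 hJ).mono_left hl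
  have h2 := (hasDerivAt_iff_tendsto_slope.1 hy).mono_left hl
  have h3 := hA.tendsto.mono_left (hl.trans nhdsWithin_le_nhds)
  have h4 : Tendsto (fun s => A s (slope J s₀ s) (slope J s₀ s)) l (𝓝 (A s₀ K K)) :=
    (isBoundedBilinearMap_apply.continuous.tendsto (_, _)).comp
      (((isBoundedBilinearMap_apply.continuous.tendsto (_, _)).comp (h3.prodMk_nhds h1)).prodMk_nhds
        h1)
  refine tendsto_nhds_unique (h4.congr' ?_) ((h2.pow 2).const_mul C)
  filter_upwards [h] with s hs
  simp only [slope, J0, y0, vsub_eq_sub, sub_zero, map_smul, smul_apply, smul_eq_mul, hs]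
  ring

theorem exists_perp (f k : E3 →L[ℝ] ℝ) : ∃ v : E3, v ≠ 0 ∧ f v = 0 ∧ k v = 0 := by
  have h := LinearMap.ker_ne_bot_of_finrank_lt (f := (f.prod k : E3 →L[ℝ] ℝ × ℝ).toLinearMap)
    (by simp)
  obtain ⟨v, h1, h2⟩ := (Submodule.ne_bot_iff _).1 h
  exact ⟨v, h2, (Prod.ext_iff.1 h1).1, (Prod.ext_iff.1 h1).2⟩

theorem exists_unit {B : Bil E3} (hp : ∀ v, v ≠ 0 → 0 < B v v) (f k : E3 →L[ℝ] ℝ) :
    ∃ v : E3, B v v = 1 ∧ f v = 0 ∧ k v = 0 := by
  obtain ⟨v, h0, h1, h2⟩ := exists_perp f k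
  have h := hp v h0
  refine ⟨(√(B v v))⁻¹ • v, ?_, by simp [h1], by simp [h2]⟩
  simp only [map_smul, smul_apply, smul_eq_mul]
  rw [← mul_assoc, ← mul_inv, mul_self_sqrt h.le, inv_mul_cancel₀ h.ne']

/-- four pairwise orthogonal vectors -/
theorem four {B : Bil E3} (hs : ∀ v w, B v w = B w v) (hp : ∀ v, v ≠ 0 → 0 < B v v)
    {a b c d : E3} (ha : a ≠ 0) (hb : b ≠ 0) (hc : c ≠ 0) (ab : B a b = 0) (ac : B a c = 0)
    (bc : B b c = 0) (ad : B a d = 0) (bd : B b d = 0) (cd : B c d = 0) : d = 0 := by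
  by_contra hd
  have h : LinearIndependent ℝ ![a, b, c, d] := by
    refine LinearMap.linearIndependent_of_isOrthoᵢ (B := B.toLinearMap₁₂) (fun i j hij => ?_)
      fun i => ?_
    · fin_cases i <;> fin_cases j <;>
        simp_all [Function.onFun, hs b a, hs c a, hs c b, hs d a, hs d b, hs d c]
    · fin_cases i <;> simp [(hp _ ha).ne', (hp _ hb).ne', (hp _ hc).ne',
        (hp _ hd).ne']
  have := h.fintype_card_le_finrank
  simp at this

/-- no closed curve on a unit circle with constant speed in `(0, 1)` and period `2π` -/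
theorem circle {B : Bil E3} (hs : ∀ v w, B v w = B w v) (hp : ∀ v, v ≠ 0 → 0 < B v v) {e : E3}
    (he : e ≠ 0) {z z1 z2 : ℝ → E3} {β : ℝ} (h1 : ∀ t, HasDerivAt z (z1 t) t)
    (h2 : ∀ t, HasDerivAt z1 (z2 t) t) (hz : ∀ t, B (z t) (z t) = 1) (hez : ∀ t, B e (z t) = 0)
    (hz1 : ∀ t, B (z1 t) (z1 t) = β ^ 2) (b0 : 0 < β) (b1 : β < 1) : z (2 * π) ≠ z 0 := by
  have D : ∀ {u v : ℝ → E3} {u' v' : E3} {t : ℝ}, HasDerivAt u u' t → HasDerivAt v v' t →
      HasDerivAt (fun t => B (u t) (v t)) (B u' (v t) + B (u t) v') t := fun hu hv => by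
    simpa using (B.hasFDerivAt.comp_hasDerivAt _ hu).clm_apply hv
  have Z : ∀ {f : ℝ → ℝ} {c k t : ℝ}, (∀ t, f t = c) → HasDerivAt f k t → k = 0 :=
    fun {f c k t} hf h => h.unique (by rw [funext hf]; exact hasDerivAt_const t c)
  have a1 : ∀ t, B (z t) (z1 t) = 0 := fun t => by
    have := Z hz (D (h1 t) (h1 t)); rw [hs] at this; linarith
  have a2 : ∀ t, B e (z1 t) = 0 := fun t => by
    simpa using Z hez (D (hasDerivAt_const t e) (h1 t))
  have a3 : ∀ t, z2 t + β ^ 2 • z t = 0 := fun t => by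
    refine four hs hp he (a := e) (b := z t) (c := z1 t) (fun h => by simpa [h] using hz t)
      (fun h => b0.ne' (by simpa [h, eq_comm] using hz1 t)) (hez t) (a2 t) (a1 t) ?_ ?_ ?_
    · have := Z a2 (D (hasDerivAt_const t e) (h2 t))
      simpa [hez t] using this
    · have := Z a1 (D (h1 t) (h2 t))
      simp only [map_add, map_smul, smul_eq_mul, hz t]
      linarith [hz1 t]
    · have := Z hz1 (D (h2 t) (h2 t))
      rw [hs] at this
      simp only [map_add, map_smul, smul_eq_mul, hs (z1 t) (z t), a1 t]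
      linarith
  set u : ℝ → ℝ := fun t => B (z t) (z 0) - cos (β * t) with hu
  set v : ℝ → ℝ := fun t => B (z1 t) (z 0) + β * sin (β * t) with hv
  have l : ∀ t, HasDerivAt (fun t => β * t) β t := fun t => by
    simpa using (hasDerivAt_id t).const_mul β
  have du : ∀ t, HasDerivAt u (v t) t := fun t =>
    ((D (h1 t) (hasDerivAt_const t _)).sub (l t).cos).congr_deriv (by simp [hv]; ring)
  have dv : ∀ t, HasDerivAt v (-β ^ 2 * u t) t := fun t =>
    ((D (h2 t) (hasDerivAt_const t _)).add ((l t).sin.const_mul β)).congr_deriv (by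
      simp [hu, eq_neg_of_add_eq_zero_left (a3 t)]; ring)
  have dE : ∀ t, HasDerivAt (fun t => β ^ 2 * u t ^ 2 + v t ^ 2) 0 t := fun t =>
    ((((du t).pow 2).const_mul _).add ((dv t).pow 2)).congr_deriv (by simp; ring)
  have hE := is_const_of_deriv_eq_zero (fun t => (dE t).differentiableAt) (fun t => (dE t).deriv)
    (2 * π) 0
  intro hc
  have u0 : u 0 = 0 := by simp [hu, hz]
  have v0 : v 0 = 0 := by simp [hv, hs (z1 0), a1]
  have u1 : u (2 * π) = 0 := by
    rw [u0, v0] at hE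
    have : β ^ 2 * u (2 * π) ^ 2 = 0 := by nlinarith [sq_nonneg (v (2 * π)), sq_nonneg (β * u (2 * π))]
    simpa [b0.ne'] using this
  simp only [hu, hc, hz, sub_eq_zero] at u1
  have := (cos_eq_one_iff_of_lt_of_lt (x := β * (2 * π)) (by nlinarith [pi_pos])
    (by nlinarith [pi_pos])).1 u1.symm
  nlinarith [pi_pos]

end Vale.Agent.P216KV
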