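import Vale.Agent.P216S.Conf
import Vale.Agent.P216KV.Alg

/-!
# P216KV/Chart: calculus along a map into a chart; the soliton equation in a chart
-/

open scoped Topology ContDiff
open Set Filter Real

set_option maxSynthPendingDepth 3

noncomputable section

namespace Vale.Agent.P216KV

open Vale.Agent.P219.RG Vale.Agent.P216R
open Vale.Agent.P210.R2.H53 (gradG gamG hessG)
open Vale.Agent.P216S (grad_spec grad_cd grad_d)

variable {E F : Type} [NormedAddCommGroup E] [NormedSpace ℝ E] [NormedAddCommGroup F]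
  [NormedSpace ℝ F]

theorem ev_const {f : ℝ → F} {s : ℝ} (h : ∀ᶠ t in 𝓝 s, HasDerivAt f 0 t) :
    ∀ᶠ t in 𝓝 s, f t = f s := by
  obtain ⟨ε, hε, h⟩ := Metric.eventually_nhds_iff_ball.1 h
  filter_upwards [Metric.ball_mem_nhds s hε] with t ht
  exact Metric.isOpen_ball.is_const_of_deriv_eq_zero (convex_ball s ε).isPreconnected
    (fun x hx => (h x hx).differentiableAt.differentiableWithinAt) (fun x hx => (h x hx).deriv) ht
    (Metric.mem_ball_self hε)

theorem hd1 {φ : ℝ × ℝ → F} {s θ : ℝ} (h : DifferentiableAt ℝ φ (s, θ)) :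
    HasDerivAt (fun s => φ (s, θ)) (fderiv ℝ φ (s, θ) (1, 0)) s :=
  HasFDerivAt.comp_hasDerivAt (f := fun s : ℝ => ((s, θ) : ℝ × ℝ)) s h.hasFDerivAt
    ((hasDerivAt_id s).prodMk (hasDerivAt_const s θ))

theorem hd2 {φ : ℝ × ℝ → F} {s θ : ℝ} (h : DifferentiableAt ℝ φ (s, θ)) :
    HasDerivAt (fun θ => φ (s, θ)) (fderiv ℝ φ (s, θ) (0, 1)) θ :=
  HasFDerivAt.comp_hasDerivAt (f := fun θ : ℝ => ((s, θ) : ℝ × ℝ)) θ h.hasFDerivAt
    ((hasDerivAt_const θ s).prodMk (hasDerivAt_id θ))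

theorem cd_d {X : F → E} {q : F} (h : ContDiffAt ℝ ∞ X q) : DifferentiableAt ℝ X q :=
  h.differentiableAt (by simp)

theorem cd_f {X : F → E} {q : F} (h : ContDiffAt ℝ ∞ X q) : ContDiffAt ℝ ∞ (fderiv ℝ X) q :=
  h.fderiv_right (m := ∞) (by simp)

theorem cd_ev {X : F → E} {q : F} (h : ContDiffAt ℝ ∞ X q) :
    ∀ᶠ p in 𝓝 q, DifferentiableAt ℝ X p := by
  have h1 : ContDiffAt ℝ 1 X q := h.of_le (by exact_mod_cast le_top)
  filter_upwards [h1.eventually (by simp)] with p hp using hp.differentiableAt (by simp)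

theorem cd_symm {X : F → E} {q : F} (h : ContDiffAt ℝ ∞ X q) (d v : F) :
    fderiv ℝ (fderiv ℝ X) q d v = fderiv ℝ (fderiv ℝ X) q v d :=
  h.isSymmSndFDerivAt (by simpa only [minSmoothness_of_isRCLikeNormedField] using two_le_infty) d v

theorem fd_app {X : F → E} {q : F} (h : ContDiffAt ℝ ∞ X q) (d v : F) :
    fderiv ℝ (fun p => fderiv ℝ X p v) q d = fderiv ℝ (fderiv ℝ X) q d v := by
  rw [((cd_d (cd_f h)).hasFDerivAt.clm_apply (hasFDerivAt_const v q)).fderiv]; simp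

theorem hd1' {X : ℝ × ℝ → E} {s θ : ℝ} (h : ContDiffAt ℝ ∞ X (s, θ)) (v : ℝ × ℝ) :
    HasDerivAt (fun s => fderiv ℝ X (s, θ) v) (fderiv ℝ (fderiv ℝ X) (s, θ) (1, 0) v) s :=
  fd_app h _ v ▸ hd1 (cd_d ((cd_f h).clm_apply contDiffAt_const))

theorem hd2' {X : ℝ × ℝ → E} {s θ : ℝ} (h : ContDiffAt ℝ ∞ X (s, θ)) (v : ℝ × ℝ) :
    HasDerivAt (fun θ => fderiv ℝ X (s, θ) v) (fderiv ℝ (fderiv ℝ X) (s, θ) (0, 1) v) θ :=
  fd_app h _ v ▸ hd2 (cd_d ((cd_f h).clm_apply contDiffAt_const))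

/-- the covariant second derivative of a map into a chart -/
def cov (G : E → Bil E) (X : F → E) (q d v : F) : E :=
  fderiv ℝ (fderiv ℝ X) q d v + chris G (X q) (fderiv ℝ X q d) (fderiv ℝ X q v)

variable {G : E → Bil E} {O O' : Set E} {X : F → E} {q : F} {f l b b' : E → ℝ} {r : ℝ} {z : E}

theorem d_one (hf : ContDiffAt ℝ ∞ f (X q)) (hX : ContDiffAt ℝ ∞ X q) (v : F) :
    fderiv ℝ (f ∘ X) q v = fderiv ℝ f (X q) (fderiv ℝ X q v) := by
  rw [fderiv_comp q (cd_d hf) (cd_d hX)]; rfl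

theorem d_two (G : E → Bil E) (hf : ContDiffAt ℝ ∞ f (X q)) (hX : ContDiffAt ℝ ∞ X q) (d v : F) :
    fderiv ℝ (fderiv ℝ (f ∘ X)) q d v = hessG G f (X q) (fderiv ℝ X q d) (fderiv ℝ X q v) +
      fderiv ℝ f (X q) (cov G X q d v) := by
  have h1 : (fun p => fderiv ℝ (f ∘ X) p v) =ᶠ[𝓝 q] fun p => fderiv ℝ f (X p) (fderiv ℝ X p v) := by
    filter_upwards [cd_ev hX, hX.continuousAt.eventually (cd_ev hf)] with p h1 h2
    rw [fderiv_comp p h2 h1]; rfl
  have h2 := ((HasFDerivAt.comp (f := X) q (cd_d (cd_f hf)).hasFDerivAt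
    (cd_d hX).hasFDerivAt).clm_apply ((cd_d (cd_f hX)).hasFDerivAt.clm_apply
      (hasFDerivAt_const v q))).congr_of_eventuallyEq h1
  rw [← fd_app (hf.comp q hX), h2.fderiv, hessG_apply, cov]
  simp
  ring

variable [FiniteDimensional ℝ E]

theorem cov_symm (hG : IsMetricOn G O) (hq : X q ∈ O) (hX : ContDiffAt ℝ ∞ X q) (d v : F) :
    cov G X q d v = cov G X q v d := by rw [cov, cov, cd_symm hX, hG.chris_symm hq]

theorem d_met (hG : IsMetricOn G O) (hq : X q ∈ O) (hX : ContDiffAt ℝ ∞ X q) (v w : F) :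
    ∃ D : F →L[ℝ] ℝ, HasFDerivAt (fun p => G (X p) (fderiv ℝ X p v) (fderiv ℝ X p w)) D q ∧
      ∀ d, D d =
      G (X q) (cov G X q d v) (fderiv ℝ X q w) + G (X q) (fderiv ℝ X q v) (cov G X q d w) := by
  have h := fun v => (cd_d (cd_f hX)).hasFDerivAt.clm_apply (hasFDerivAt_const v q)
  refine ⟨_, ((HasFDerivAt.comp (f := X) q (hG.differentiableAt hq).hasFDerivAt
    (cd_d hX).hasFDerivAt).clm_apply (h v)).clm_apply (h w), fun d => ?_⟩
  simp [cov, hG.chris_compat hq]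
  ring

theorem tan (hG : IsMetricOn G O) (hz : z ∈ O) {T : E} (hT : G z T T = 1)
    (h : gamG G l l z = fderiv ℝ l z T ^ 2) (W : E) :
    fderiv ℝ l z W = fderiv ℝ l z T * G z T W := by
  have h1 : gradG G l z - fderiv ℝ l z T • T = 0 := hG.eq_zero hz (by
    simp only [map_sub, map_smul, sub_apply, smul_apply, smul_eq_mul, hT, grad_spec hG hz,
      hG.symm z hz T]
    rw [gamG] at h
    rw [h]; ring)
  rw [← grad_spec hG hz l W, sub_eq_zero.1 h1]; simp

/-- the soliton equation on a product with a line, in a chart -/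
structure Sol (G : E → Bil E) (O : Set E) (l b : E → ℝ) (r : ℝ) : Prop where
  met : IsMetricOn G O
  sl : ∀ z ∈ O, ContDiffAt ℝ ∞ l z
  sb : ∀ z ∈ O, ContDiffAt ℝ ∞ b z
  hb : ∀ z ∈ O, hessG G b z = 0
  ub : ∀ z ∈ O, gamG G b b z = 1
  lb : ∀ z ∈ O, gamG G l b z = 0
  hl : ∀ z ∈ O, ∀ v w, hessG G l z v w =
    (r - exp (l z)) / 2 * (G z v w - fderiv ℝ b z v * fderiv ℝ b z w)

theorem Sol.dN (h : Sol G O l b r) (hz : z ∈ O) :
    HasFDerivAt (fun z => gamG G l l z - (r * l z - exp (l z))) (0 : E →L[ℝ] ℝ) z := by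
  have h1 := cd_d (h.sl z hz)
  have h2 := ((cd_d (cd_f (h.sl z hz))).hasFDerivAt.clm_apply
    (cd_d (grad_cd h.met hz (h.sl z hz))).hasFDerivAt).sub
    ((h1.hasFDerivAt.const_mul r).sub h1.hasFDerivAt.exp)
  refine h2.congr_fderiv ?_
  ext v
  have e1 := grad_d h.met hz (h.sl z hz) v (gradG G l z)
  have e2 := hessG_apply G l z v (gradG G l z)
  have e3 := h.hl z hz v (gradG G l z)
  have e4 : fderiv ℝ b z (gradG G l z) = 0 := by
    rw [← grad_spec h.met hz, h.met.symm z hz, grad_spec h.met hz]; exact h.lb z hz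
  rw [h.met.symm z hz, grad_spec h.met hz, map_add] at e1
  rw [h.met.symm z hz, grad_spec h.met hz, e4] at e3
  simp
  linarith

theorem Sol.cons (h : Sol G O l b r) (h' : Sol G O' l b' r) (hz : z ∈ O) (hz' : z ∈ O')
    (hr : exp (l z) = r → fderiv ℝ l z ≠ 0) : ∃ ε : ℝ, fderiv ℝ b' z = ε • fderiv ℝ b z := by
  have h1 : ∀ y ∈ O, y ∈ O' → exp (l y) ≠ r → gamG G b' b y ^ 2 = 1 := fun y hy hy' hne => by
    have e1 := (h.hl y hy (gradG G b y) (gradG G b y)).symm.trans (h'.hl y hy' _ _)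
    have e2 : fderiv ℝ b y (gradG G b y) = 1 := h.ub y hy
    rw [e2] at e1
    have := mul_left_cancel₀ (div_ne_zero (sub_ne_zero.2 hne.symm) two_ne_zero) e1
    rw [gamG]; linarith
  have h2 : gamG G b' b z ^ 2 = 1 := by
    by_cases e : exp (l z) = r
    · have c : ContinuousAt (fun y => gamG G b' b y ^ 2) z :=
        ((cd_f (h'.sb z hz')).clm_apply (grad_cd h.met hz (h.sb z hz))).continuousAt.pow 2
      refine tendsto_nhds_unique_of_frequently_eq c tendsto_const_nhds ?_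
      have fr : ∃ᶠ y in 𝓝 z, exp (l y) ≠ r := fun k => hr e (by
        have : l =ᶠ[𝓝 z] fun _ => l z := by
          filter_upwards [k] with y hy using exp_injective ((not_not.1 hy).trans e.symm)
        rw [this.fderiv_eq, fderiv_fun_const]; rfl)
      exact (fr.and_eventually ((h.met.isOpen.eventually_mem hz).and
        (h'.met.isOpen.eventually_mem hz'))).mono fun y hy => h1 y hy.2.1 hy.2.2 hy.1
    · exact h1 z hz hz' e
  have h3 : gradG G b' z - gamG G b' b z • gradG G b z = 0 := h.met.eq_zero hz (by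
    have e1 : fderiv ℝ b z (gradG G b z) = 1 := h.ub z hz
    have e2 : fderiv ℝ b' z (gradG G b' z) = 1 := h'.ub z hz'
    have e3 : fderiv ℝ b z (gradG G b' z) = gamG G b' b z := by
      rw [← grad_spec h.met hz, h.met.symm z hz, grad_spec h.met hz]; rfl
    have e4 : fderiv ℝ b' z (gradG G b z) = gamG G b' b z := rfl
    simp only [map_sub, map_smul, sub_apply, smul_apply, smul_eq_mul, grad_spec h.met hz, e1, e2,
      e3, e4]
    linarith)
  refine ⟨gamG G b' b z, ContinuousLinearMap.ext fun v => ?_⟩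
  rw [← grad_spec h.met hz, sub_eq_zero.1 h3, map_smul, smul_apply, grad_spec h.met hz, smul_apply]

end Vale.Agent.P216KV
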