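import Vale.Agent.P216T.Glue
import Vale.Agent.P216T.Univ
import Mathlib.Topology.PartitionOfUnity
import Mathlib.GroupTheory.Abelianization.Defs

/-!
# P216KV: tools for the slope of a torus which lifts
-/

set_option linter.all false

open Set Topology Filter Multiplicative

noncomputable section

namespace Vale.Agent.P216KV

open Vale.Agent.P216T Vale.Agent.P216M

/-- `HasSec` passes to retracts. -/
theorem hasSec_retract {B B' A : Type} [TopologicalSpace B] [TopologicalSpace B'] [Group A]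
    (h : HasSec B A) {e : B → B'} {e' : B' → B} (he : Continuous e) (he' : Continuous e')
    (hee : ∀ y, e (e' y) = y) : HasSec B' A := by
  intro ι U hU cov T hloc hself hco
  obtain ⟨σ, h1, h2⟩ := h ι (fun i => e ⁻¹' U i) (fun i => (hU i).preimage he)
    (fun x => cov (e x)) (fun i j x => T i j (e x))
    (fun i j x hx => he.continuousAt.eventually (hloc i j (e x) hx))
    (fun i x hx => hself i _ hx) (fun i j l x hx => hco i j l _ hx)
  refine ⟨fun i y => σ i (e' y), fun i y hy => ?_, fun i j y hy => ?_⟩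
  · exact he'.continuousAt.eventually (h1 i (e' y) (by rwa [mem_preimage, hee]))
  · have := h2 i j (e' y) ⟨by rw [mem_preimage, hee]; exact hy.1,
      by rw [mem_preimage, hee]; exact hy.2⟩
    rwa [hee] at this

/-- An equivariant function for a homomorphism to the integers. -/
theorem exists_T {Pi Wt W : Type} [Group Pi] [TopologicalSpace Wt] [TopologicalSpace W]
    [MulAction Pi Wt] [NormalSpace W] [ParacompactSpace W] {p : Wt → W} (h : Quo Pi p)
    (π : Pi →* Multiplicative ℤ) :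
    ∃ T : Wt → ℝ, Continuous T ∧ ∀ (l : Pi) q, T (l • q) = T q + (toAdd (π l) : ℤ) := by
  classical
  choose O hO hx hi hg using h.exists_nbhd
  obtain ⟨ρ, hρ⟩ := PartitionOfUnity.exists_isSubordinate (s := (univ : Set W)) isClosed_univ
    (fun x : Wt => p '' O x) (fun x => h.isOpenMap _ (hO x)) (fun w _ => by
      obtain ⟨x, rfl⟩ := h.surj w
      exact mem_iUnion.2 ⟨x, x, hx x, rfl⟩)
  let lam : Wt → Wt → Pi := fun x q => if k : ∃ l : Pi, l⁻¹ • q ∈ O x then k.choose else 1
  have h1 : ∀ x q (l : Pi), l⁻¹ • q ∈ O x → lam x q = l := fun x q l k => by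
    have k' : ∃ l : Pi, l⁻¹ • q ∈ O x := ⟨l, k⟩
    simp only [lam, dif_pos k']
    have := hg x (l⁻¹ * k'.choose) _ k'.choose_spec (by rwa [mul_smul, smul_inv_smul])
    exact (inv_mul_eq_one.1 this).symm
  have h2 : ∀ x q, p q ∈ p '' O x → ∃ l : Pi, l⁻¹ • q ∈ O x := by
    rintro x q ⟨y, hy, e⟩
    obtain ⟨l, rfl⟩ := h.orb y q e
    exact ⟨l, by rwa [inv_smul_smul]⟩
  let f : Wt → Wt → ℝ := fun x q => ρ x (p q) * ((toAdd (π (lam x q)) : ℤ) : ℝ)
  have h3 : ∀ x, Function.support (f x) ⊆ p ⁻¹' Function.support (ρ x) := fun x q k =>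
    left_ne_zero_of_mul k
  have h4 : LocallyFinite fun x => Function.support (f x) :=
    (ρ.locallyFinite.preimage_continuous h.continuous).subset h3
  refine ⟨fun q => ∑ᶠ x, f x q, continuous_finsum (fun x => ?_) h4, fun l q => ?_⟩
  · refine ContinuousOn.continuous_of_tsupport_subset (s := p ⁻¹' (p '' O x)) (fun q hq => ?_)
      ((h.isOpenMap _ (hO x)).preimage h.continuous) ?_
    · obtain ⟨l, hl⟩ := h2 x q hq
      refine ContinuousAt.continuousWithinAt (((ρ x).continuous.comp h.continuous).continuousAt.mul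
        ((continuousAt_const (y := ((toAdd (π l) : ℤ) : ℝ))).congr ?_))
      filter_upwards [((hO x).preimage (h.cont l⁻¹)).mem_nhds hl] with y hy
      rw [h1 x y l hy]
    · exact (closure_minimal ((h3 x).trans (preimage_mono subset_closure))
        ((isClosed_tsupport _).preimage h.continuous)).trans (preimage_mono (hρ x))
  · have h5 : ∀ x, f x (l • q) = f x q + ρ x (p q) * ((toAdd (π l) : ℤ) : ℝ) := fun x => by
      simp only [f, h.inv]
      by_cases k : ρ x (p q) = 0
      · simp [k]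
      · obtain ⟨m, hm⟩ := h2 x q (hρ x (subset_closure k))
        rw [h1 x q m hm, h1 x (l • q) (l * m) (by rwa [mul_inv_rev, mul_smul, inv_smul_smul]),
          map_mul, toAdd_mul]
        push_cast
        ring
    have h6 : Function.HasFiniteSupport fun x => ρ x (p q) := ρ.locallyFinite.point_finite _
    beta_reduce
    rw [finsum_congr h5, finsum_add_distrib (h4.point_finite q)
      (h6.subset fun x k => left_ne_zero_of_mul k), ← finsum_mul _ _,
      ρ.sum_eq_one (mem_univ _), one_mul]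

/-- The abelian quotients of the group are quotients of the lattice. -/
theorem grp {Pi : Type} [Group Pi] (mh : Multiplicative (ℤ × ℤ) →* Pi)
    (h1 : ∀ (Γ : Type) [CommGroup Γ] (χ : Pi →* Γ), (∀ u, χ (mh u) = 1) → χ = 1) :
    (∃ (π : Pi →* Multiplicative ℤ) (i j : ℤ), IsCoprime i j ∧
      ∀ m n : ℤ, toAdd (π (mh (ofAdd (m, n)))) = i * m + j * n) ∨
      ∃ p : ℕ, p.Prime ∧ ∀ χ : Pi →* Multiplicative (ZMod p), χ = 1 := by
  let f : Multiplicative (ℤ × ℤ) →* Abelianization Pi := Abelianization.of.comp mh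
  have hf : Function.Surjective f := by
    have h2 := h1 (Abelianization Pi ⧸ f.range) ((QuotientGroup.mk' f.range).comp Abelianization.of)
      fun u => (QuotientGroup.eq_one_iff _).2 ⟨u, rfl⟩
    intro y
    obtain ⟨x, rfl⟩ : ∃ x, Abelianization.of x = y := QuotientGroup.mk_surjective y
    exact (QuotientGroup.eq_one_iff _).1 (DFunLike.congr_fun h2 x)
  by_cases hd : ∃ u v : ℤ × ℤ, f (ofAdd u) = 1 ∧ f (ofAdd v) = 1 ∧ u.1 * v.2 - u.2 * v.1 ≠ 0
  · obtain ⟨u, v, hu, hv, hd⟩ := hd
    obtain ⟨p, hp, hp'⟩ := Nat.exists_infinite_primes ((u.1 * v.2 - u.2 * v.1).natAbs + 1)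
    haveI := Fact.mk hp'
    refine .inr ⟨p, hp', fun χ => h1 _ χ ?_⟩
    have h2 : ((u.1 * v.2 - u.2 * v.1 : ℤ) : ZMod p) ≠ 0 := fun k =>
      absurd (Nat.le_of_dvd (Int.natAbs_pos.2 hd)
        (Int.natCast_dvd.1 ((ZMod.intCast_zmod_eq_zero_iff_dvd _ p).1 k))) (by omega)
    have h3 : ∀ w : ℤ × ℤ, toAdd (χ (mh (ofAdd w))) =
        w.1 * toAdd (χ (mh (ofAdd (1, 0)))) + w.2 * toAdd (χ (mh (ofAdd (0, 1)))) := fun w => by
      have : ofAdd w = ofAdd ((1 : ℤ), (0 : ℤ)) ^ w.1 * ofAdd ((0 : ℤ), (1 : ℤ)) ^ w.2 := by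
        rw [← ofAdd_zsmul, ← ofAdd_zsmul, ← ofAdd_add]
        simp
      rw [this, map_mul, map_mul, map_zpow, map_zpow, map_zpow, map_zpow, toAdd_mul, toAdd_zpow,
        toAdd_zpow, zsmul_eq_mul, zsmul_eq_mul]
    have h4 : ∀ w : ℤ × ℤ, f (ofAdd w) = 1 → toAdd (χ (mh (ofAdd w))) = 0 := fun w k => by
      have := congrArg (Abelianization.lift χ) k
      rw [map_one] at this
      exact congrArg toAdd this
    have a1 := h4 u hu
    have a2 := h4 v hv
    rw [h3] at a1 a2
    push_cast at h2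
    have a3 : toAdd (χ (mh (ofAdd (1, 0)))) = 0 := (mul_eq_zero.1 (by
      linear_combination (v.2 : ZMod p) * a1 - (u.2 : ZMod p) * a2)).resolve_left h2
    have a4 : toAdd (χ (mh (ofAdd (0, 1)))) = 0 := (mul_eq_zero.1 (by
      linear_combination (u.1 : ZMod p) * a2 - (v.1 : ZMod p) * a1)).resolve_left h2
    intro w
    have := h3 (toAdd w)
    rw [a3, a4, mul_zero, mul_zero, add_zero] at this
    exact this
  · have h2 : ∃ i j : ℤ, IsCoprime i j ∧ ∀ v : ℤ × ℤ, f (ofAdd v) = 1 → i * v.1 + j * v.2 = 0 := by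
      by_cases h0 : ∃ u : ℤ × ℤ, f (ofAdd u) = 1 ∧ u ≠ 0
      · obtain ⟨u, hu, hu0⟩ := h0
        have h3 : 0 < Int.gcd u.1 u.2 := Int.gcd_pos_iff.2 (by
          by_contra k
          rw [not_or, not_not, not_not] at k
          exact hu0 (Prod.ext k.1 k.2))
        obtain ⟨m, n, h4, h5, h6⟩ := Int.exists_gcd_one h3
        refine ⟨-n, m, (Int.isCoprime_iff_gcd_eq_one.2 h4).symm.neg_left, fun v hv => ?_⟩
        have h7 : u.1 * v.2 - u.2 * v.1 = 0 := not_not.1 fun k => hd ⟨u, v, hu, hv, k⟩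
        refine mul_left_cancel₀ (a := (Int.gcd u.1 u.2 : ℤ)) (by exact_mod_cast h3.ne') ?_
        generalize (Int.gcd u.1 u.2 : ℤ) = d at h5 h6
        rw [h5, h6] at h7
        linear_combination h7
      · refine ⟨1, 0, isCoprime_one_left, fun v hv => ?_⟩
        rw [not_not.1 fun k => h0 ⟨v, hv, k⟩]
        simp
    obtain ⟨i, j, h3, h4⟩ := h2
    let φ : Multiplicative (ℤ × ℤ) →* Multiplicative ℤ :=
      MonoidHom.mk' (fun w => ofAdd (i * (toAdd w).1 + j * (toAdd w).2)) fun u v => by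
        rw [← ofAdd_add, toAdd_mul, Prod.fst_add, Prod.snd_add]
        congr 1
        ring
    have h5 : f.ker ≤ φ.ker := fun w k => congrArg ofAdd (h4 (toAdd w) k)
    refine .inl ⟨(f.liftOfSurjective hf ⟨φ, h5⟩).comp Abelianization.of, i, j, h3, fun m n => ?_⟩
    exact congrArg toAdd (f.liftOfRightInverse_comp_apply _ (Function.rightInverse_surjInv hf)
      ⟨φ, h5⟩ (ofAdd (m, n)))

end Vale.Agent.P216KV
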