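import Vale.Agent.P216KV.Fam

/-!
# P216KV/Rig: there is no closed rotational soliton
-/

open scoped Manifold Topology ContDiff
open Set Filter Real

set_option maxSynthPendingDepth 3

noncomputable section

namespace Vale.Agent.P216KV

open Vale.Agent.P219.RG Vale.Agent.P216R Vale.Agent.P216K
open Vale.Agent.P216DC (Spl)
open Vale.Agent.P210.R2.H53 (gradG gamG hessG)

variable {M : Type} [TopologicalSpace M] [ChartedSpace E3 M] [IsManifold 𝓘(ℝ, E3) ∞ M]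
  {g : Ten E3 M} {U : Set M} {L : M → ℝ} {r m : ℝ} {a p : M} {c : ℝ × ℝ → M} {q : ℝ × ℝ}

theorem hess_ip (h : Hyp g U L r) (F : Fm g U c) (ha : c q ∈ (chartAt E3 a).source)
    {v : ℝ × ℝ} (hv : Z g U c v q) (w : ℝ × ℝ) : fderiv ℝ (fderiv ℝ (L ∘ c)) q v w =
      (r - exp (L (c q))) / 2 * ip g c v w q +
      fderiv ℝ (rd E3 L a) (ch c a q) (cov (co g a) (ch c a) q v w) := by
  obtain ⟨V, h1, hV, h3, b, hb⟩ := h.ex (F.mem q)
  rw [F.two h.met.isOpen h.sm (F.mem q) ha, (h.sol h1 hV hb a).hl _ (ch_mem ha h3),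
    ← F.one hV hb.smooth h3 ha, hv V h1 hV b hb h3, F.ip_eq ha, rd, ch, Function.comp_apply,
    (chartAt E3 a).left_inv ha, zero_mul, sub_zero]

theorem const_s {φ : ℝ × ℝ → ℝ} (h : ∀ q, DifferentiableAt ℝ φ q ∧ fderiv ℝ φ q (1, 0) = 0)
    (q : ℝ × ℝ) : φ q = φ (0, q.2) :=
  have k : ∀ s, HasDerivAt (fun s => φ (s, q.2)) 0 s := fun _ => (h _).2 ▸ hd1 (h _).1
  is_const_of_deriv_eq_zero (fun s => (k s).differentiableAt) (fun s => (k s).deriv) q.1 0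

theorem no_fam (h : Hyp g U L r) (F : Fm g U c) (hp : ∀ θ, c (0, θ) = p) {u u1 : ℝ → E3}
    (hu : ∀ θ, fderiv ℝ (ch c p) (0, θ) (1, 0) = u θ) (hu1 : ∀ θ, HasDerivAt u (u1 θ) θ)
    (n0 : ∀ θ, g p (u θ) (u θ) = 1) (n1 : ∀ θ, g p (u1 θ) (u1 θ) = 1)
    (z0 : (∀ x ∈ U, exp (L x) = r → gam g L L x ≠ 0) → ∀ θ, Z g U c (1, 0) (0, θ))
    (per : ∀ s, c (s, 2 * π) = c (s, 0)) (hM : ∀ x ∈ U, L x ≤ L p) (hm : ∀ x ∈ U, m ≤ L x)
    (hN : ∀ x ∈ U, gam g L L x = r * L x - exp (L x) - (r * L p - exp (L p)))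
    (hr : r < exp (L p)) : False := by
  have hg := h.met
  have hr' : ∀ x ∈ U, exp (L x) = r → gam g L L x ≠ 0 := fun x hx e k =>
    (two_zero (exp_lt_exp.1 (e ▸ hr)) (sub_eq_zero.1 ((hN x hx).symm.trans k))).1.ne e
  have Z1 := z_one h F hr' (z0 hr')
  have Z2 := z_two h F hr' (z0 hr') hp
  have S : ∀ q, c q ∈ (chartAt E3 (c q)).source := fun q => mem_chart_source E3 _
  have S0 : ∀ θ, c (0, θ) ∈ (chartAt E3 p).source := fun θ => hp θ ▸ S _
  have D : ∀ {q a}, c q ∈ (chartAt E3 a).source → ch c a q ∈ dom E3 a U :=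
    fun ha => ch_mem ha (F.mem _)
  have X0 : ∀ θ, ch c p (0, θ) = pt E3 p := fun θ => by rw [ch, hp]; rfl
  have J0 : ∀ θ, fderiv ℝ (ch c p) (0, θ) (0, 1) = 0 := fun θ =>
    (hd2 (cd_d (F.sm _ _ (S0 θ)))).unique (by simpa only [X0] using hasDerivAt_const θ (pt E3 p))
  have I1 : ∀ q, ip g c (1, 0) (1, 0) q = 1 := fun q => by
    rw [const_s (fun q => ⟨(F.ip_d hg (S q) _ _).1, by
      rw [(F.ip_d hg (S q) _ _).2, F.geo q _ (S q)]; simp⟩) q, F.ip_eq (S0 _), X0, co_pt, hu, n0]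
  have I2 : ∀ q, ip g c (1, 0) (0, 1) q = 0 := fun q => by
    rw [const_s (fun q => ⟨(F.ip_d hg (S q) _ _).1, ?_⟩) q, F.ip_eq (S0 _), J0, map_zero]
    have e := (F.ip_d hg (S q) (1, 0) (1, 0)).2 (0, 1)
    rw [funext I1, fderiv_fun_const, (hg.isMetricOn _).symm _ (D (S q))] at e
    rw [(F.ip_d hg (S q) _ _).2, F.geo q _ (S q),
      cov_symm (hg.isMetricOn _) (D (S q)) (F.sm q _ (S q))]
    simp only [Pi.zero_apply, zero_apply, map_zero, zero_add] at e ⊢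
    linarith
  have cy : ∀ q, ContDiffAt ℝ ∞ (L ∘ c) q := fun q => F.cd hg.isOpen h.sm (F.mem q)
  have yss : ∀ q, fderiv ℝ (fderiv ℝ (L ∘ c)) q (1, 0) (1, 0) = (r - exp (L (c q))) / 2 :=
    fun q => by rw [hess_ip h F (S q) (Z1 q), I1, F.geo q _ (S q), map_zero, mul_one, add_zero]
  have y0 : ∀ θ, fderiv ℝ (L ∘ c) (0, θ) (1, 0) = 0 := fun θ => by
    rw [IsLocalMax.fderiv_eq_zero (Eventually.of_forall fun q => ?_), zero_apply]
    simpa only [Function.comp, hp] using hM _ (F.mem q)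
  have en : ∀ q, fderiv ℝ (L ∘ c) q (1, 0) ^ 2 = gam g L L (c q) := fun q => by
    have k : ∀ s, HasDerivAt (fun s => fderiv ℝ (L ∘ c) (s, q.2) (1, 0) ^ 2 -
        (r * (L ∘ c) (s, q.2) - exp ((L ∘ c) (s, q.2)))) 0 s := fun s =>
      (((hd1' (cy _) (1, 0)).pow 2).sub (((hd1 (cd_d (cy _))).const_mul r).sub
        (hd1 (cd_d (cy _))).exp)).congr_deriv (by rw [yss]; simp; ring)
    have := is_const_of_deriv_eq_zero (fun s => (k s).differentiableAt) (fun s => (k s).deriv) q.1 0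
    simp only [y0, Function.comp, hp, Prod.mk.eta] at this
    rw [hN _ (F.mem q)]
    linarith
  have tn : ∀ {q a} (ha : c q ∈ (chartAt E3 a).source) (W : E3),
      fderiv ℝ (rd E3 L a) (ch c a q) W = fderiv ℝ (L ∘ c) q (1, 0) *
        co g a (ch c a q) (fderiv ℝ (ch c a) q (1, 0)) W := fun {q a} ha W => by
    rw [F.one hg.isOpen h.sm (F.mem q) ha]
    refine tan (hg.isMetricOn a) (D ha) ((F.ip_eq ha _ _).symm.trans (I1 q)) ?_ W
    rw [← F.one hg.isOpen h.sm (F.mem q) ha, en, gam_rd hg hg.isOpen Subset.rfl h.sm h.sm (D ha),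
      ch, (chartAt E3 a).left_inv ha]
  have y2 : ∀ q, fderiv ℝ (L ∘ c) q (0, 1) = 0 := fun q => by
    rw [F.one hg.isOpen h.sm (F.mem q) (S q), tn (S q), ← F.ip_eq (S q), I2, mul_zero]
  set Y : ℝ → ℝ := fun s => L (c (s, 0)) with hY
  set Y1 : ℝ → ℝ := fun s => fderiv ℝ (L ∘ c) (s, 0) (1, 0) with hY1
  have dY : ∀ s, HasDerivAt Y (Y1 s) s := fun s => hd1 (cd_d (cy _))
  have dY1 : ∀ s, HasDerivAt Y1 ((r - exp (Y s)) / 2) s := fun s => yss _ ▸ hd1' (cy _) (1, 0)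
  have eY : ∀ s θ, L (c (s, θ)) = Y s := fun s θ =>
    have k : ∀ θ, HasDerivAt (fun θ => (L ∘ c) (s, θ)) 0 θ := fun θ => y2 _ ▸ hd2 (cd_d (cy _))
    is_const_of_deriv_eq_zero (fun s => (k s).differentiableAt) (fun s => (k s).deriv) θ 0
  have eY1 : ∀ s θ, fderiv ℝ (L ∘ c) (s, θ) (1, 0) = Y1 s := fun s θ =>
    (hd1 (cd_d (cy _))).unique (by simpa only [Function.comp, eY] using dY s)
  have hh : ∀ s θ, Y1 s * fderiv ℝ (ip g c (0, 1) (0, 1)) (s, θ) (1, 0) =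
      (r - exp (Y s)) * ip g c (0, 1) (0, 1) (s, θ) := fun s θ => by
    have e1 := hess_ip h F (S (s, θ)) (Z2 _) (0, 1)
    have e2 := (F.ip_d hg (S (s, θ)) (1, 0) (0, 1)).2 (0, 1)
    have e3 := (F.ip_d hg (S (s, θ)) (0, 1) (0, 1)).2 (1, 0)
    rw [(hd2' (cy (s, θ)) (0, 1)).unique (by simpa only [y2] using hasDerivAt_const θ (0 : ℝ)), tn (S _),
      eY1, eY] at e1
    rw [funext I2, fderiv_fun_const, cov_symm (hg.isMetricOn _) (D (S _)) (F.sm _ _ (S _))] at e2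
    rw [(hg.isMetricOn _).symm _ (D (S _)) (fderiv ℝ _ _ (0, 1))] at e3
    simp only [Pi.zero_apply, zero_apply] at e2
    rw [e3]
    linear_combination (-2) * Y1 s * e2 + 2 * e1
  have Y0 : Y 0 = L p := by rw [hY, ← hp 0]
  obtain ⟨T, T0, T1, T2, T3⟩ := first_zero dY dY1 (y0 0) (fun s => hm _ (F.mem _)) (Y0 ▸ hr)
  have hC : ∀ θ, ∃ C, ∀ s ∈ Ioo 0 T, ip g c (0, 1) (0, 1) (s, θ) = C * Y1 s ^ 2 := fun θ => by
    have k : ∀ s ∈ Ioo 0 T, HasDerivAt (fun s => ip g c (0, 1) (0, 1) (s, θ) / Y1 s ^ 2) 0 s :=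
      fun s hs => ((hd1 (F.ip_d hg (S _) _ _).1).div ((dY1 s).pow 2)
        (pow_ne_zero 2 (T2 s hs).ne)).congr_deriv (by
          rw [div_eq_zero_iff]; left; simp only [Pi.pow_apply]; push_cast
          linear_combination Y1 s * hh s θ)
    obtain ⟨C, hC⟩ := isOpen_Ioo.exists_is_const_of_deriv_eq_zero isPreconnected_Ioo
      (fun s hs => (k s hs).differentiableAt.differentiableWithinAt) fun s hs => (k s hs).deriv
    exact ⟨C, fun s hs => by rw [← hC s hs, div_mul_cancel₀ _ (pow_ne_zero 2 (T2 s hs).ne)]⟩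
  choose C hC using hC
  have En : ∀ {s θ a} (ha : c (s, θ) ∈ (chartAt E3 a).source) (l : Filter ℝ) [l.NeBot],
      l ≤ 𝓝[≠] s → (∀ᶠ t in l, t ∈ Ioo 0 T) → fderiv ℝ (ch c a) (s, θ) (0, 1) = 0 → Y1 s = 0 →
      co g a (ch c a (s, θ)) (fderiv ℝ (fderiv ℝ (ch c a)) (s, θ) (0, 1) (1, 0))
        (fderiv ℝ (fderiv ℝ (ch c a)) (s, θ) (0, 1) (1, 0)) = C θ * ((r - exp (Y s)) / 2) ^ 2 :=
    fun {s θ a} ha l _ l1 l2 k1 k2 => by
      rw [cd_symm (F.sm _ _ ha)]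
      refine end_lim (A := fun s => co g a (ch c a (s, θ))) l1 (ContinuousAt.comp (g := co g a)
        ((hg.isMetricOn a).contDiffAt (D ha)).continuousAt (hd1 (cd_d (F.sm _ _ ha))).continuousAt)
        (hd1' (F.sm _ _ ha) (0, 1)) (dY1 s) k1 k2 ?_
      filter_upwards [l2, (l1.trans nhdsWithin_le_nhds)
        ((Continuous.prodMk_left θ).continuousAt.eventually (F.ev ha))] with t t1 t2
      rw [← F.ip_eq t2, hC θ t t1]
  have C0 : ∀ θ, C θ * ((r - exp (Y 0)) / 2) ^ 2 = 1 := fun θ => by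
    rw [← En (S0 θ) (𝓝[>] 0) (nhdsGT_le_nhdsNE 0) (Ioo_mem_nhdsGT T0) (J0 θ) (y0 0), X0, co_pt,
      (hd2' (F.sm _ _ (S0 θ)) (1, 0)).unique (by simpa only [hu] using hu1 θ), n1]
  have JT : ∀ {θ a}, c (T, θ) ∈ (chartAt E3 a).source → fderiv ℝ (ch c a) (T, θ) (0, 1) = 0 :=
    fun {θ a} ha => by
      refine (hg.isMetricOn a).eq_zero (D ha) ((F.ip_eq ha _ _).symm.trans ?_)
      have k := ((dY1 T).continuousAt.pow 2).const_mul (C θ)
      have := tendsto_nhds_unique_of_eventuallyEq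
        ((hd1 (F.ip_d hg ha (0, 1) (0, 1)).1).continuousAt.tendsto.mono_left nhdsWithin_le_nhds)
        (k.tendsto.mono_left nhdsWithin_le_nhds)
        (by filter_upwards [Ioo_mem_nhdsLT T0] with t ht using hC θ t ht)
      simpa [T1] using this
  have cT : ∀ θ, c (T, θ) = c (T, 0) := fun θ => by
    refine IsLocallyConstant.apply_eq_of_preconnectedSpace (f := fun θ => c (T, θ))
      ((IsLocallyConstant.iff_eventually_eq _).2 fun θ => ?_) θ 0
    have e := (Continuous.prodMk_right T).continuousAt.eventually (F.ev (S (T, θ)))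
    filter_upwards [e, ev_const (e.mono fun t ht => JT ht ▸ hd2 (cd_d (F.sm _ _ ht)))] with t t1 t2
    exact (chartAt E3 _).injOn t1 (S _) t2
  set x := c (T, 0) with hx
  have ST : ∀ θ, c (T, θ) ∈ (chartAt E3 x).source := fun θ => cT θ ▸ S _
  have XT : ∀ θ, ch c x (T, θ) = pt E3 x := fun θ => by rw [ch, cT]; rfl
  obtain ⟨V, h1, hV, h3, b, hb⟩ := h.ex (F.mem (T, 0))
  have so := h.sol h1 hV hb x
  have mx : pt E3 x ∈ dom E3 x V := pt_mem_dom h3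
  obtain ⟨k1, k2⟩ := two_zero (r := r) T3 (by
    have := en (T, 0)
    rw [eY1, T1, hN _ (F.mem _), eY, ← Y0] at this
    linarith)
  rw [← Y0] at hr
  have cz : ContDiff ℝ ∞ fun θ => fderiv ℝ (ch c x) (T, θ) (1, 0) := contDiff_iff_contDiffAt.2
    fun θ => ((cd_f (F.sm _ _ (ST θ))).comp θ (f := fun θ => (T, θ))
      (contDiffAt_const.prodMk contDiffAt_id)).clm_apply contDiffAt_const
  refine circle (B := co g x (pt E3 x)) (so.met.symm _ mx) (so.met.pos _ mx)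
    (e := gradG (co g x) (rd E3 b x) (pt E3 x)) (β := (r - exp (Y T)) / (exp (Y 0) - r))
    (fun k => by simpa [gamG, k] using so.ub _ mx)
    (fun θ => (cz.differentiable (by simp) θ).hasDerivAt)
    (fun θ => ((contDiff_infty_iff_deriv.1 cz).2.differentiable (by simp) θ).hasDerivAt)
    (fun θ => by rw [← XT θ, ← F.ip_eq (ST θ), I1]) (fun θ => ?_) (fun θ => ?_)
    (div_pos (by linarith) (by linarith)) ((div_lt_one (by linarith)).2 k2) ?_
  · have k : c (T, θ) ∈ V := cT θ ▸ h3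
    rw [P216S.grad_spec so.met mx, ← XT θ, ← F.one hV hb.smooth k (ST θ), Z1 _ V h1 hV b hb k]
  · rw [(hd2' (F.sm _ _ (ST θ)) (1, 0)).deriv, ← XT θ,
      En (ST θ) (𝓝[<] T) (nhdsLT_le_nhdsNE T) (Ioo_mem_nhdsLT T0) (JT (ST θ)) T1, div_pow _ (_ - r),
      eq_div_iff (pow_ne_zero 2 (by linarith))]
    linear_combination (r - exp (Y T)) ^ 2 * C0 θ
  · exact (hd1 (cd_d (F.sm _ _ (ST _)))).unique (by
      simpa only [ch, per] using hd1 (cd_d (F.sm _ _ (ST 0))))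

end Vale.Agent.P216KV
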